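import Vale.Agent.P092.Gen.Defs

open Polynomial

namespace Vale.Agent.P092.Gen

noncomputable section

lemma el_inv (i j : Fin 3) (h : i ≠ j) (r : R) : (el i j h r)⁻¹ = el i j h (-r) := by
  rw [inv_eq_iff_mul_eq_one, ← el_add, add_neg_cancel, el_zero]

lemma el_comm (i j k : Fin 3) (hij : i ≠ j) (hjk : j ≠ k) (hik : i ≠ k) (a b : R) :
    el i j hij a * el j k hjk b * (el i j hij a)⁻¹ * (el j k hjk b)⁻¹ = el i k hik (a * b) := by
  rw [el_inv, el_inv]
  apply LinearEquiv.ext
  intro m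
  change el i j hij a (el j k hjk b (el i j hij (-a) (el j k hjk (-b) m))) = el i k hik (a * b) m
  simp only [el_apply]
  funext l
  by_cases h1 : l = i
  · subst h1
    simp [hij, hij.symm, hik.symm, hjk.symm]
    ring
  · by_cases h2 : l = j
    · subst h2
      simp [hij.symm, hik, hjk.symm]
    · simp [h1, h2]

/-- `{r | x_ij(r) ∈ Γ}` -/
def Sg (i j : Fin 3) (h : i ≠ j) : AddSubgroup R where
  carrier := {r | el i j h r ∈ Gam}
  zero_mem' := by
    change el i j h 0 ∈ Gam
    rw [el_zero]; exact one_mem _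
  add_mem' {a b} ha hb := by
    change el i j h (a + b) ∈ Gam
    rw [el_add]; exact mul_mem ha hb
  neg_mem' {a} ha := by
    change el i j h (-a) ∈ Gam
    rw [← el_inv]; exact inv_mem ha

lemma Sg_mul {i j k : Fin 3} (hij : i ≠ j) (hjk : j ≠ k) (hik : i ≠ k) {a b : R}
    (ha : a ∈ Sg i j hij) (hb : b ∈ Sg j k hjk) : a * b ∈ Sg i k hik := by
  change el i k hik (a * b) ∈ Gam
  rw [← el_comm i j k hij hjk hik]
  exact mul_mem (mul_mem (mul_mem ha hb) (inv_mem ha)) (inv_mem hb)

lemma Sg01_C (k : K) : C k ∈ Sg 0 1 (by decide) :=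
  Subgroup.subset_closure (Or.inl (Or.inl ⟨k, rfl⟩))

lemma Sg12_C (k : K) : C k ∈ Sg 1 2 (by decide) :=
  Subgroup.subset_closure (Or.inl (Or.inr ⟨k, rfl⟩))

lemma Sg20_C (k : K) : X * C k ∈ Sg 2 0 (by decide) :=
  Subgroup.subset_closure (Or.inr ⟨k, rfl⟩)

lemma Sg_mono (n : ℕ) : ∀ k : K,
    C k * X ^ n ∈ Sg 0 1 (by decide) ∧ C k * X ^ n ∈ Sg 1 2 (by decide) ∧
    C k * X ^ n ∈ Sg 0 2 (by decide) ∧ C k * X ^ (n + 1) ∈ Sg 1 0 (by decide) ∧
    C k * X ^ (n + 1) ∈ Sg 2 0 (by decide) ∧ C k * X ^ (n + 1) ∈ Sg 2 1 (by decide) := by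
  induction n with
  | zero =>
    intro k
    have h01 := Sg01_C; have h12 := Sg12_C; have h20 := Sg20_C
    have h1 : (1 : R) ∈ Sg 0 1 (by decide) := by simpa using h01 1
    have h1' : (1 : R) ∈ Sg 1 2 (by decide) := by simpa using h12 1
    refine ⟨by simpa using h01 k, by simpa using h12 k, ?_, ?_, ?_, ?_⟩
    · have := Sg_mul (by decide) (by decide) (show (0 : Fin 3) ≠ 2 by decide) (h01 k) h1'
      simpa using this
    · have := Sg_mul (by decide) (by decide) (show (1 : Fin 3) ≠ 0 by decide) h1' (h20 k)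
      rw [one_mul, mul_comm] at this; rwa [zero_add, pow_one]
    · have := h20 k
      rw [mul_comm] at this; rwa [zero_add, pow_one]
    · have := Sg_mul (by decide) (by decide) (show (2 : Fin 3) ≠ 1 by decide) (h20 k) h1
      rw [mul_one, mul_comm] at this; rwa [zero_add, pow_one]
  | succ n ih =>
    have hX21 : (X : R) ∈ Sg 2 1 (by decide) := by
      have h1 : (1 : R) ∈ Sg 0 1 (by decide) := by simpa using Sg01_C 1
      have := Sg_mul (by decide) (by decide) (show (2 : Fin 3) ≠ 1 by decide) (Sg20_C 1) h1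
      simpa using this
    have hX20 : (X : R) ∈ Sg 2 0 (by decide) := by simpa using Sg20_C 1
    have h1 : (1 : R) ∈ Sg 1 2 (by decide) := by simpa using Sg12_C 1
    have hX10 : (X : R) ∈ Sg 1 0 (by decide) := by
      have := Sg_mul (by decide) (by decide) (show (1 : Fin 3) ≠ 0 by decide) h1 hX20
      simpa using this
    intro k
    obtain ⟨i01, i12, i02, i10, i20, i21⟩ := ih k
    have a01 : C k * X ^ (n + 1) ∈ Sg 0 1 (by decide) := by
      have := Sg_mul (by decide) (by decide) (show (0 : Fin 3) ≠ 1 by decide) i02 hX21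
      rwa [mul_assoc, ← pow_succ] at this
    have a12 : C k * X ^ (n + 1) ∈ Sg 1 2 (by decide) := by
      have := Sg_mul (by decide) (by decide) (show (1 : Fin 3) ≠ 2 by decide) hX10 i02
      rwa [← mul_assoc, mul_comm X (C k), mul_assoc, mul_comm X, ← pow_succ] at this
    have a02 : C k * X ^ (n + 1) ∈ Sg 0 2 (by decide) := by
      have := Sg_mul (by decide) (by decide) (show (0 : Fin 3) ≠ 2 by decide) a01 h1
      rwa [mul_one] at this
    refine ⟨a01, a12, a02, ?_, ?_, ?_⟩
    · have := Sg_mul (by decide) (by decide) (show (1 : Fin 3) ≠ 0 by decide) a12 hX20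
      rwa [mul_assoc, ← pow_succ] at this
    · have := Sg_mul (by decide) (by decide) (show (2 : Fin 3) ≠ 0 by decide) hX21 i10
      rwa [← mul_assoc, mul_comm X (C k), mul_assoc, mul_comm X, ← pow_succ] at this
    · have := Sg_mul (by decide) (by decide) (show (2 : Fin 3) ≠ 1 by decide) hX20 a01
      rwa [← mul_assoc, mul_comm X (C k), mul_assoc, mul_comm X, ← pow_succ] at this

lemma mem_of_mono (S : AddSubgroup R) (h : ∀ n (k : K), C k * X ^ n ∈ S) (r : R) : r ∈ S := by
  induction r using Polynomial.induction_on' with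
  | add p q hp hq => exact add_mem hp hq
  | monomial n a => rw [← C_mul_X_pow_eq_monomial]; exact h n a

lemma mem_of_mono' (S : AddSubgroup R) (h : ∀ n (k : K), C k * X ^ (n + 1) ∈ S) (r : R) :
    X * r ∈ S := by
  induction r using Polynomial.induction_on' with
  | add p q hp hq => rw [mul_add]; exact add_mem hp hq
  | monomial n a =>
    rw [← C_mul_X_pow_eq_monomial, mul_comm, mul_assoc, ← pow_succ]; exact h n a

lemma el01_mem (r : R) : el 0 1 (by decide) r ∈ Gam :=
  mem_of_mono (Sg 0 1 (by decide)) (fun n k => (Sg_mono n k).1) r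

lemma el12_mem (r : R) : el 1 2 (by decide) r ∈ Gam :=
  mem_of_mono (Sg 1 2 (by decide)) (fun n k => (Sg_mono n k).2.1) r

lemma el02_mem (r : R) : el 0 2 (by decide) r ∈ Gam :=
  mem_of_mono (Sg 0 2 (by decide)) (fun n k => (Sg_mono n k).2.2.1) r

lemma el10_mem (r : R) : el 1 0 (by decide) (X * r) ∈ Gam :=
  mem_of_mono' (Sg 1 0 (by decide)) (fun n k => (Sg_mono n k).2.2.2.1) r

lemma el20_mem (r : R) : el 2 0 (by decide) (X * r) ∈ Gam :=
  mem_of_mono' (Sg 2 0 (by decide)) (fun n k => (Sg_mono n k).2.2.2.2.1) r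

lemma el21_mem (r : R) : el 2 1 (by decide) (X * r) ∈ Gam :=
  mem_of_mono' (Sg 2 1 (by decide)) (fun n k => (Sg_mono n k).2.2.2.2.2) r

lemma zmod2_eq_one : ∀ a : ZMod 2, a ≠ 0 → a = 1 := by decide

/-- Additive characters `M → ZMod 2` separate points. -/
lemma exists_form (m : M) (hm : m ≠ 0) :
    ∃ f : M → ZMod 2, (∀ x y, f (x + y) = f x + f y) ∧ f m = 1 := by
  have : Fact (Nat.Prime 2) := ⟨Nat.prime_two⟩
  obtain ⟨f, hf⟩ := Module.Projective.exists_dual_ne_zero (ZMod 2) hm
  refine ⟨f, fun x y => map_add f x y, ?_⟩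
  exact zmod2_eq_one _ hf

lemma chiA_inj (s : Bool) (m : M) (h : chiA s m = 0) : m = 0 := by
  by_contra hm
  obtain ⟨f, hf, h1⟩ := exists_form m hm
  have h2 := congrFun (congrArg Subtype.val h) ⟨f, fun _ => 0, hf, fun _ _ _ => by simp⟩
  change 2 * lift (f m) = 0 at h2
  rw [two_lift_eq_zero, h1] at h2
  exact one_ne_zero h2

end

end Vale.Agent.P092.Gen
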