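import Vale.Agent.P092.Gen.Basic

open Polynomial

namespace Vale.Agent.P092.Gen

noncomputable section

/-- `r e_i` -/
abbrev E (i : Fin 3) (r : R) : M := Pi.single i r

lemma E_add (i : Fin 3) (r s : R) : E i (r + s) = E i r + E i s := Pi.single_add ..

lemma el_E_self {i j : Fin 3} (h : i ≠ j) (r s : R) :
    el i j h r (E j s) = E j s + E i (r * s) := by
  rw [el_apply]; simp [E]

lemma el_E_other {i j k : Fin 3} (h : i ≠ j) (hk : k ≠ j) (r s : R) :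
    el i j h r (E k s) = E k s := by
  rw [el_apply]; simp [E, hk.symm]

lemma decomp (m : M) : m = E 0 (m 0) + E 1 (m 1) + E 2 (m 2) := by
  funext k; fin_cases k <;> simp [E]

lemma splitR (r : R) : ∃ (r' : R) (k : K), r = X * r' + C k :=
  ⟨r.divX, r.coeff 0, by rw [mul_comm]; exact (Polynomial.divX_mul_X_add r).symm⟩

section

variable {A : Type*} [AddCommGroup A] (N : A → ℝ) (hadd : ∀ a b, N (a + b) ≤ N a + N b)
  (hneg : ∀ a, N (-a) = N a) (θ : M → A) (β : M →+ M →+ A)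
  (hθ : ∀ m n, θ (m + n) = θ m + θ n + β m n)
  (hinv : ∀ g ∈ Gam, ∀ m, N (θ (g m)) = N (θ m))
  (hinvb : ∀ g ∈ Gam, ∀ m n, N (β (g m) (g n)) = N (β m n))
  (ε : ℝ) (hε : ∀ i (k : K), N (θ (E i (C k))) ≤ ε)

include hadd hneg in
lemma Nsub (a b : A) : N (a - b) ≤ N a + N b := by
  rw [sub_eq_add_neg]; exact (hadd _ _).trans (by rw [hneg])

include hθ in
lemma beta_comm (m n : M) : β m n = β n m := by
  have h1 := hθ m n
  have h2 := hθ n m
  rw [add_comm n m, h1, add_comm (θ n)] at h2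
  exact add_left_cancel h2

include hθ in
lemma beta_third (a b c : M) :
    β a b = θ (a + b + c) - θ (a + c) - θ (b + c) + θ c := by
  have h1 : θ (a + b + c) = θ a + θ b + β a b + θ c + (β a c + β b c) := by
    rw [hθ, hθ a b, map_add, AddMonoidHom.add_apply]
  rw [h1, hθ a c, hθ b c]; abel

include hθ hadd hneg in
lemma N_third (a b c : M) :
    N (β a b) ≤ N (θ (a + b + c)) + N (θ (a + c)) + N (θ (b + c)) + N (θ c) := by
  rw [beta_third θ β hθ a b c]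
  have h1 := hadd (θ (a + b + c) - θ (a + c) - θ (b + c)) (θ c)
  have h2 := Nsub N hadd hneg (θ (a + b + c) - θ (a + c)) (θ (b + c))
  have h3 := Nsub N hadd hneg (θ (a + b + c)) (θ (a + c))
  linarith

include hθ hadd hneg in
lemma N_second (a b : M) : N (β a b) ≤ N (θ (a + b)) + N (θ a) + N (θ b) := by
  have h0 : β a b = θ (a + b) - θ a - θ b := by rw [hθ]; abel
  rw [h0]
  have h2 := Nsub N hadd hneg (θ (a + b) - θ a) (θ b)
  have h3 := Nsub N hadd hneg (θ (a + b)) (θ a)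
  linarith

include hθ hadd hneg in
/-- `θ a` from `θ (c + a)`, `θ c` and `β c a` -/
lemma N_theta (c a : M) : N (θ a) ≤ N (θ (c + a)) + N (θ c) + N (β c a) := by
  have h0 : θ a = θ (c + a) - θ c - β c a := by rw [hθ]; abel
  have h2 := Nsub N hadd hneg (θ (c + a) - θ c) (β c a)
  have h3 := Nsub N hadd hneg (θ (c + a)) (θ c)
  rw [← h0] at h2
  linarith

include hθ in
lemma theta_zero : θ 0 = 0 := by
  have h := hθ 0 0
  rw [add_zero, map_zero, add_zero] at h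
  exact left_eq_add.mp h

include hadd hθ hε in
lemma N0_le : 0 ≤ ε ∧ N 0 ≤ ε := by
  have h1 := hadd 0 0
  have h2 := hε 0 0
  rw [C_0, E, Pi.single_zero, theta_zero θ β hθ] at h2
  rw [add_zero] at h1
  exact ⟨by linarith, h2⟩

include hinv hε in
lemma orb2 (k : K) (hk : k ≠ 0) (r s : R) : N (θ (E 2 (C k) + E 0 r + E 1 s)) ≤ ε := by
  have hkk : C k⁻¹ * C k = (1 : R) := by rw [← C_mul, inv_mul_cancel₀ hk, C_1]
  have h1 : el 1 2 (by decide) (s * C k⁻¹) (el 0 2 (by decide) (r * C k⁻¹) (E 2 (C k))) =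
      E 2 (C k) + E 0 r + E 1 s := by
    rw [el_E_self, map_add, el_E_self, el_E_other (by decide) (by decide), mul_assoc, mul_assoc,
      hkk, mul_one, mul_one]
    abel
  rw [← h1, hinv _ (el12_mem _), hinv _ (el02_mem _)]
  exact hε _ _

include hinv hε in
lemma orb1 (k : K) (hk : k ≠ 0) (r s : R) : N (θ (E 1 (C k) + E 0 r + E 2 (X * s))) ≤ ε := by
  have hkk : C k⁻¹ * C k = (1 : R) := by rw [← C_mul, inv_mul_cancel₀ hk, C_1]
  have h1 : el 2 1 (by decide) (X * (s * C k⁻¹)) (el 0 1 (by decide) (r * C k⁻¹) (E 1 (C k))) =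
      E 1 (C k) + E 0 r + E 2 (X * s) := by
    rw [el_E_self, map_add, el_E_self, el_E_other (by decide) (by decide), mul_assoc, mul_assoc,
      mul_assoc, hkk, mul_one, mul_one]
    abel
  rw [← h1, hinv _ (el21_mem _), hinv _ (el01_mem _)]
  exact hε _ _

include hinv hε in
lemma orb0 (k : K) (hk : k ≠ 0) (r s : R) :
    N (θ (E 0 (C k) + E 1 (X * r) + E 2 (X * s))) ≤ ε := by
  have hkk : C k⁻¹ * C k = (1 : R) := by rw [← C_mul, inv_mul_cancel₀ hk, C_1]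
  have h1 : el 2 0 (by decide) (X * (s * C k⁻¹)) (el 1 0 (by decide) (X * (r * C k⁻¹))
      (E 0 (C k))) = E 0 (C k) + E 1 (X * r) + E 2 (X * s) := by
    rw [el_E_self, map_add, el_E_self, el_E_other (by decide) (by decide), mul_assoc, mul_assoc,
      mul_assoc, mul_assoc, hkk, mul_one, mul_one]
    abel
  rw [← h1, hinv _ (el20_mem _), hinv _ (el10_mem _)]
  exact hε _ _

include hadd hneg hθ hinv hε in
lemma B01 (r s : R) : N (β (E 0 r) (E 1 s)) ≤ 4 * ε := by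
  have h := N_third N hadd hneg θ β hθ (E 0 r) (E 1 s) (E 2 (C 1))
  have h1 := orb2 N θ hinv ε hε 1 one_ne_zero r s
  have h2 := orb2 N θ hinv ε hε 1 one_ne_zero r 0
  have h3 := orb2 N θ hinv ε hε 1 one_ne_zero 0 s
  have h4 := hε 2 1
  have e1 : E 0 r + E 1 s + E 2 (C 1) = E 2 (C 1) + E 0 r + E 1 s := by abel
  have e2 : E 0 r + E 2 (C 1) = E 2 (C 1) + E 0 r + E 1 0 := by simp [E, add_comm]
  have e3 : E 1 s + E 2 (C 1) = E 2 (C 1) + E 0 0 + E 1 s := by simp [E, add_comm]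
  rw [e1, e2, e3] at h
  linarith

include hadd hneg hθ hinv hε in
lemma T0 (r : R) : N (θ (E 0 r)) ≤ 6 * ε := by
  have h := N_theta N hadd hneg θ β hθ (E 1 (C 1)) (E 0 r)
  have h1 := orb1 N θ hinv ε hε 1 one_ne_zero r 0
  have h2 := hε 1 1
  have h3 := B01 N hadd hneg θ β hθ hinv ε hε r (C 1)
  rw [beta_comm θ β hθ] at h3
  have e1 : E 1 (C 1) + E 0 r = E 1 (C 1) + E 0 r + E 2 (X * 0) := by simp [E]
  rw [e1] at h
  linarith

include hadd hneg hθ hinv hε in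
lemma B02 (r s : R) : N (β (E 0 r) (E 2 s)) ≤ 12 * ε := by
  obtain ⟨s', k, rfl⟩ := splitR s
  rw [E_add, map_add]
  have hX : N (β (E 0 r) (E 2 (X * s'))) ≤ 4 * ε := by
    have h := N_third N hadd hneg θ β hθ (E 0 r) (E 2 (X * s')) (E 1 (C 1))
    have h1 := orb1 N θ hinv ε hε 1 one_ne_zero r s'
    have h2 := orb1 N θ hinv ε hε 1 one_ne_zero r 0
    have h3 := orb1 N θ hinv ε hε 1 one_ne_zero 0 s'
    have h4 := hε 1 1
    have e1 : E 0 r + E 2 (X * s') + E 1 (C 1) = E 1 (C 1) + E 0 r + E 2 (X * s') := by abel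
    have e2 : E 0 r + E 1 (C 1) = E 1 (C 1) + E 0 r + E 2 (X * 0) := by simp [E, add_comm]
    have e3 : E 2 (X * s') + E 1 (C 1) = E 1 (C 1) + E 0 0 + E 2 (X * s') := by
      simp [E, add_comm]
    rw [e1, e2, e3] at h
    linarith
  have hC : N (β (E 0 r) (E 2 (C k))) ≤ 8 * ε := by
    rcases eq_or_ne k 0 with rfl | hk
    · have h0 := N0_le N hadd θ β hθ ε hε
      have e : β (E 0 r) (E 2 (C 0)) = 0 := by simp [E]
      rw [e]; linarith
    · have h := N_second N hadd hneg θ β hθ (E 0 r) (E 2 (C k))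
      have h1 := T0 N hadd hneg θ β hθ hinv ε hε r
      have h2 := hε 2 k
      have h3 := orb2 N θ hinv ε hε k hk r 0
      have e : E 0 r + E 2 (C k) = E 2 (C k) + E 0 r + E 1 0 := by simp [E, add_comm]
      rw [e] at h
      linarith
  exact (hadd _ _).trans (by linarith)

include hadd hneg hθ hinv hε in
lemma TX1 (r : R) : N (θ (E 1 (X * r))) ≤ 6 * ε := by
  have h := N_theta N hadd hneg θ β hθ (E 0 (C 1)) (E 1 (X * r))
  have h1 := orb0 N θ hinv ε hε 1 one_ne_zero r 0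
  have h2 := hε 0 1
  have h3 := B01 N hadd hneg θ β hθ hinv ε hε (C 1) (X * r)
  have e1 : E 0 (C 1) + E 1 (X * r) = E 0 (C 1) + E 1 (X * r) + E 2 (X * 0) := by simp [E]
  rw [e1] at h
  linarith

include hadd hneg hθ hinv hε in
lemma TX2 (r : R) : N (θ (E 2 (X * r))) ≤ 6 * ε := by
  have h := N_theta N hadd hneg θ β hθ (E 0 (C 1)) (E 2 (X * r))
  have h1 := orb0 N θ hinv ε hε 1 one_ne_zero 0 r
  have h2 := hε 0 1
  have h3 := N_third N hadd hneg θ β hθ (E 0 (C 1)) (E 2 (X * r)) (E 1 (C 1))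
  have h4 := orb1 N θ hinv ε hε 1 one_ne_zero (C 1) r
  have h5 := orb1 N θ hinv ε hε 1 one_ne_zero (C 1) 0
  have h6 := orb1 N θ hinv ε hε 1 one_ne_zero 0 r
  have h7 := hε 1 1
  have e1 : E 0 (C 1) + E 2 (X * r) = E 0 (C 1) + E 1 (X * 0) + E 2 (X * r) := by simp [E]
  have e4 : E 0 (C 1) + E 2 (X * r) + E 1 (C 1) = E 1 (C 1) + E 0 (C 1) + E 2 (X * r) := by abel
  have e5 : E 0 (C 1) + E 1 (C 1) = E 1 (C 1) + E 0 (C 1) + E 2 (X * 0) := by
    simp [E, add_comm]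
  have e6 : E 2 (X * r) + E 1 (C 1) = E 1 (C 1) + E 0 0 + E 2 (X * r) := by
    simp [E, add_comm]
  rw [e4, e5, e6] at h3
  rw [← e1] at h1
  linarith

include hadd hneg hθ hinv hε in
lemma B12 (r s : R) : N (β (E 1 r) (E 2 s)) ≤ 23 * ε := by
  obtain ⟨r', k, rfl⟩ := splitR r
  obtain ⟨s', l, rfl⟩ := splitR s
  have h0 := N0_le N hadd θ β hθ ε hε
  have hXX : N (β (E 1 (X * r')) (E 2 (X * s'))) ≤ 4 * ε := by
    have h := N_third N hadd hneg θ β hθ (E 1 (X * r')) (E 2 (X * s')) (E 0 (C 1))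
    have h1 := orb0 N θ hinv ε hε 1 one_ne_zero r' s'
    have h2 := orb0 N θ hinv ε hε 1 one_ne_zero r' 0
    have h3 := orb0 N θ hinv ε hε 1 one_ne_zero 0 s'
    have h4 := hε 0 1
    have e1 : E 1 (X * r') + E 2 (X * s') + E 0 (C 1) =
      E 0 (C 1) + E 1 (X * r') + E 2 (X * s') := by abel
    have e2 : E 1 (X * r') + E 0 (C 1) = E 0 (C 1) + E 1 (X * r') + E 2 (X * 0) := by
      simp [E, add_comm]
    have e3 : E 2 (X * s') + E 0 (C 1) = E 0 (C 1) + E 1 (X * 0) + E 2 (X * s') := by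
      simp [E, add_comm]
    rw [e1, e2, e3] at h
    linarith
  have hCX : N (β (E 1 (C k)) (E 2 (X * s'))) ≤ 8 * ε := by
    rcases eq_or_ne k 0 with rfl | hk
    · have e : β (E 1 (C 0)) (E 2 (X * s')) = 0 := by simp [E]
      rw [e]; linarith
    · have h := N_second N hadd hneg θ β hθ (E 1 (C k)) (E 2 (X * s'))
      have h1 := TX2 N hadd hneg θ β hθ hinv ε hε s'
      have h2 := hε 1 k
      have h3 := orb1 N θ hinv ε hε k hk 0 s'
      have e : E 1 (C k) + E 2 (X * s') = E 1 (C k) + E 0 0 + E 2 (X * s') := by simp [E]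
      rw [e] at h
      linarith
  have hXC : N (β (E 1 (X * r')) (E 2 (C l))) ≤ 8 * ε := by
    rcases eq_or_ne l 0 with rfl | hl
    · have e : β (E 1 (X * r')) (E 2 (C 0)) = 0 := by simp [E]
      rw [e]; linarith
    · have h := N_second N hadd hneg θ β hθ (E 1 (X * r')) (E 2 (C l))
      have h1 := TX1 N hadd hneg θ β hθ hinv ε hε r'
      have h2 := hε 2 l
      have h3 := orb2 N θ hinv ε hε l hl 0 (X * r')
      have e : E 1 (X * r') + E 2 (C l) = E 2 (C l) + E 0 0 + E 1 (X * r') := by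
        simp [E, add_comm]
      rw [e] at h
      linarith
  have hCC : N (β (E 1 (C k)) (E 2 (C l))) ≤ 3 * ε := by
    rcases eq_or_ne l 0 with rfl | hl
    · have e : β (E 1 (C k)) (E 2 (C 0)) = 0 := by simp [E]
      rw [e]; linarith
    · have h := N_second N hadd hneg θ β hθ (E 1 (C k)) (E 2 (C l))
      have h1 := hε 1 k
      have h2 := hε 2 l
      have h3 := orb2 N θ hinv ε hε l hl 0 (C k)
      have e : E 1 (C k) + E 2 (C l) = E 2 (C l) + E 0 0 + E 1 (C k) := by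
        simp [E, add_comm]
      rw [e] at h
      linarith
  have e : β (E 1 (X * r' + C k)) (E 2 (X * s' + C l)) =
      (β (E 1 (X * r')) (E 2 (X * s')) + β (E 1 (X * r')) (E 2 (C l))) +
      (β (E 1 (C k)) (E 2 (X * s')) + β (E 1 (C k)) (E 2 (C l))) := by
    simp only [E_add, map_add, AddMonoidHom.add_apply]
    abel
  rw [e]
  have a1 := hadd (β (E 1 (X * r')) (E 2 (X * s')) + β (E 1 (X * r')) (E 2 (C l)))
    (β (E 1 (C k)) (E 2 (X * s')) + β (E 1 (C k)) (E 2 (C l)))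
  have a2 := hadd (β (E 1 (X * r')) (E 2 (X * s'))) (β (E 1 (X * r')) (E 2 (C l)))
  have a3 := hadd (β (E 1 (C k)) (E 2 (X * s'))) (β (E 1 (C k)) (E 2 (C l)))
  linarith

include hadd hneg hθ hinv hinvb hε in
lemma B00 (r s : R) : N (β (E 0 r) (E 0 s)) ≤ 8 * ε := by
  have h1 := hinvb _ (el01_mem 1) (E 0 r) (E 1 s)
  rw [el_E_other (by decide) (by decide), el_E_self, one_mul, map_add] at h1
  have h2 := B01 N hadd hneg θ β hθ hinv ε hε r s
  have e : β (E 0 r) (E 0 s) =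
      (β (E 0 r) (E 1 s) + β (E 0 r) (E 0 s)) - β (E 0 r) (E 1 s) := by abel
  have h3 := Nsub N hadd hneg (β (E 0 r) (E 1 s) + β (E 0 r) (E 0 s)) (β (E 0 r) (E 1 s))
  rw [← e] at h3
  linarith

include hadd hneg hθ hinv hinvb hε in
lemma B11 (r s : R) : N (β (E 1 r) (E 1 s)) ≤ 46 * ε := by
  have h1 := hinvb _ (el12_mem 1) (E 1 r) (E 2 s)
  rw [el_E_other (by decide) (by decide), el_E_self, one_mul, map_add] at h1
  have h2 := B12 N hadd hneg θ β hθ hinv ε hε r s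
  have e : β (E 1 r) (E 1 s) =
      (β (E 1 r) (E 2 s) + β (E 1 r) (E 1 s)) - β (E 1 r) (E 2 s) := by abel
  have h3 := Nsub N hadd hneg (β (E 1 r) (E 2 s) + β (E 1 r) (E 1 s)) (β (E 1 r) (E 2 s))
  rw [← e] at h3
  linarith

include hadd hneg hθ hinv hinvb hε in
lemma B22X (r s : R) : N (β (E 2 r) (E 2 (X * s))) ≤ 46 * ε := by
  have h1 := hinvb _ (el21_mem 1) (E 2 r) (E 1 s)
  rw [el_E_other (by decide) (by decide), el_E_self, mul_one, map_add] at h1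
  have h2 := B12 N hadd hneg θ β hθ hinv ε hε s r
  rw [beta_comm θ β hθ] at h2
  have e : β (E 2 r) (E 2 (X * s)) =
      (β (E 2 r) (E 1 s) + β (E 2 r) (E 2 (X * s))) - β (E 2 r) (E 1 s) := by abel
  have h3 := Nsub N hadd hneg (β (E 2 r) (E 1 s) + β (E 2 r) (E 2 (X * s)))
    (β (E 2 r) (E 1 s))
  rw [← e] at h3
  linarith

include hadd hneg hθ hinv hinvb hε in
lemma B22 (r s : R) : N (β (E 2 r) (E 2 s)) ≤ 95 * ε := by
  obtain ⟨r', k, rfl⟩ := splitR r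
  obtain ⟨s', l, rfl⟩ := splitR s
  have h1 := B22X N hadd hneg θ β hθ hinv hinvb ε hε (X * r' + C k) s'
  have h2 := B22X N hadd hneg θ β hθ hinv hinvb ε hε (C l) r'
  rw [beta_comm θ β hθ] at h2
  have h3 := N_second N hadd hneg θ β hθ (E 2 (C k)) (E 2 (C l))
  rw [← E_add, ← C_add] at h3
  have h4 := hε 2 (k + l)
  have h5 := hε 2 k
  have h6 := hε 2 l
  have e : β (E 2 (X * r' + C k)) (E 2 (X * s' + C l)) =
      β (E 2 (X * r' + C k)) (E 2 (X * s')) + (β (E 2 (X * r')) (E 2 (C l)) +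
        β (E 2 (C k)) (E 2 (C l))) := by
    rw [E_add 2 (X * s'), map_add, E_add 2 (X * r') (C k), map_add, AddMonoidHom.add_apply,
      AddMonoidHom.add_apply]
  rw [e]
  have a1 := hadd (β (E 2 (X * r' + C k)) (E 2 (X * s'))) (β (E 2 (X * r')) (E 2 (C l)) +
        β (E 2 (C k)) (E 2 (C l)))
  have a2 := hadd (β (E 2 (X * r')) (E 2 (C l))) (β (E 2 (C k)) (E 2 (C l)))
  linarith

include hadd hneg hθ hinv hinvb hε in
/-- The bilinear part is uniformly small. -/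
theorem N_beta (m n : M) : N (β m n) ≤ 227 * ε := by
  have e : β m n = β (E 0 (m 0)) (E 0 (n 0)) + β (E 0 (m 0)) (E 1 (n 1)) +
      β (E 0 (m 0)) (E 2 (n 2)) + (β (E 0 (n 0)) (E 1 (m 1)) + β (E 1 (m 1)) (E 1 (n 1)) +
      β (E 1 (m 1)) (E 2 (n 2))) + (β (E 0 (n 0)) (E 2 (m 2)) + β (E 1 (n 1)) (E 2 (m 2)) +
      β (E 2 (m 2)) (E 2 (n 2))) := by
    rw [beta_comm θ β hθ (E 0 (n 0)) (E 1 (m 1)), beta_comm θ β hθ (E 0 (n 0)) (E 2 (m 2)),
      beta_comm θ β hθ (E 1 (n 1)) (E 2 (m 2))]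
    conv_lhs => rw [decomp m, decomp n]
    simp only [map_add, AddMonoidHom.add_apply]
    abel
  rw [e]
  have h00 := B00 N hadd hneg θ β hθ hinv hinvb ε hε (m 0) (n 0)
  have h11 := B11 N hadd hneg θ β hθ hinv hinvb ε hε (m 1) (n 1)
  have h22 := B22 N hadd hneg θ β hθ hinv hinvb ε hε (m 2) (n 2)
  have h01 := B01 N hadd hneg θ β hθ hinv ε hε (m 0) (n 1)
  have h10 := B01 N hadd hneg θ β hθ hinv ε hε (n 0) (m 1)
  have h02 := B02 N hadd hneg θ β hθ hinv ε hε (m 0) (n 2)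
  have h20 := B02 N hadd hneg θ β hθ hinv ε hε (n 0) (m 2)
  have h12 := B12 N hadd hneg θ β hθ hinv ε hε (m 1) (n 2)
  have h21 := B12 N hadd hneg θ β hθ hinv ε hε (n 1) (m 2)
  refine (hadd _ _).trans ?_
  have a1 := hadd (β (E 0 (m 0)) (E 0 (n 0)) + β (E 0 (m 0)) (E 1 (n 1)) +
      β (E 0 (m 0)) (E 2 (n 2))) (β (E 0 (n 0)) (E 1 (m 1)) + β (E 1 (m 1)) (E 1 (n 1)) +
      β (E 1 (m 1)) (E 2 (n 2)))
  have a2 := hadd (β (E 0 (m 0)) (E 0 (n 0)) + β (E 0 (m 0)) (E 1 (n 1)))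
    (β (E 0 (m 0)) (E 2 (n 2)))
  have a3 := hadd (β (E 0 (m 0)) (E 0 (n 0))) (β (E 0 (m 0)) (E 1 (n 1)))
  have a4 := hadd (β (E 0 (n 0)) (E 1 (m 1)) + β (E 1 (m 1)) (E 1 (n 1)))
    (β (E 1 (m 1)) (E 2 (n 2)))
  have a5 := hadd (β (E 0 (n 0)) (E 1 (m 1))) (β (E 1 (m 1)) (E 1 (n 1)))
  have a6 := hadd (β (E 0 (n 0)) (E 2 (m 2)) + β (E 1 (n 1)) (E 2 (m 2)))
    (β (E 2 (m 2)) (E 2 (n 2)))
  have a7 := hadd (β (E 0 (n 0)) (E 2 (m 2))) (β (E 1 (n 1)) (E 2 (m 2)))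
  linarith

include hadd hneg hθ hinv hinvb hε in
/-- `θ_m` is uniformly small. -/
theorem N_theta_le (m : M) : N (θ m) ≤ 200 * ε := by
  have e : θ m = θ (E 0 (m 0)) + θ (E 1 (m 1)) + β (E 0 (m 0)) (E 1 (m 1)) + θ (E 2 (m 2)) +
      (β (E 0 (m 0)) (E 2 (m 2)) + β (E 1 (m 1)) (E 2 (m 2))) := by
    conv_lhs => rw [decomp m]
    rw [hθ, hθ (E 0 (m 0)), map_add, AddMonoidHom.add_apply]
  rw [e]
  have t0 := T0 N hadd hneg θ β hθ hinv ε hε (m 0)
  have t1 : N (θ (E 1 (m 1))) ≤ 53 * ε := by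
    obtain ⟨r', k, h⟩ := splitR (m 1)
    rw [h, E_add, hθ]
    have h1 := TX1 N hadd hneg θ β hθ hinv ε hε r'
    have h2 := hε 1 k
    have h3 := B11 N hadd hneg θ β hθ hinv hinvb ε hε (X * r') (C k)
    have a1 := hadd (θ (E 1 (X * r')) + θ (E 1 (C k))) (β (E 1 (X * r')) (E 1 (C k)))
    have a2 := hadd (θ (E 1 (X * r'))) (θ (E 1 (C k)))
    linarith
  have t2 : N (θ (E 2 (m 2))) ≤ 102 * ε := by
    obtain ⟨r', k, h⟩ := splitR (m 2)
    rw [h, E_add, hθ]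
    have h1 := TX2 N hadd hneg θ β hθ hinv ε hε r'
    have h2 := hε 2 k
    have h3 := B22 N hadd hneg θ β hθ hinv hinvb ε hε (X * r') (C k)
    have a1 := hadd (θ (E 2 (X * r')) + θ (E 2 (C k))) (β (E 2 (X * r')) (E 2 (C k)))
    have a2 := hadd (θ (E 2 (X * r'))) (θ (E 2 (C k)))
    linarith
  have h01 := B01 N hadd hneg θ β hθ hinv ε hε (m 0) (m 1)
  have h02 := B02 N hadd hneg θ β hθ hinv ε hε (m 0) (m 2)
  have h12 := B12 N hadd hneg θ β hθ hinv ε hε (m 1) (m 2)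
  refine (hadd _ _).trans ?_
  have a1 := hadd (θ (E 0 (m 0)) + θ (E 1 (m 1)) + β (E 0 (m 0)) (E 1 (m 1))) (θ (E 2 (m 2)))
  have a2 := hadd (θ (E 0 (m 0)) + θ (E 1 (m 1))) (β (E 0 (m 0)) (E 1 (m 1)))
  have a3 := hadd (θ (E 0 (m 0))) (θ (E 1 (m 1)))
  have a4 := hadd (β (E 0 (m 0)) (E 2 (m 2))) (β (E 1 (m 1)) (E 2 (m 2)))
  linarith

end

end

end Vale.Agent.P092.Gen
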