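import Mathlib
import Vale.Agent.P092.Defs

/-!
# Two ICC property (T) groups with the same von Neumann algebra: definitions
-/

open Polynomial

namespace Vale.Agent.P092.Gen

universe u

noncomputable section

/-- Kazhdan's property (T) for a discrete group `G`: there are a finite set `S` and `ε > 0` such
that every unitary representation on a complex Hilbert space with a unit vector moved by at most
`ε` by all elements of `S` has a nonzero invariant vector. -/
def PropertyT (G : Type*) [Group G] : Prop :=
  ∃ (S : Finset G) (ε : ℝ), 0 < ε ∧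
    ∀ (H : Type u) [NormedAddCommGroup H] [InnerProductSpace ℂ H] [CompleteSpace H]
      (π : G →* (H ≃ₗᵢ[ℂ] H)) (v : H), ‖v‖ = 1 → (∀ s ∈ S, ‖π s v - v‖ ≤ ε) →
      ∃ w : H, w ≠ 0 ∧ ∀ g : G, π g w = w

/-- The field with eight elements. -/
abbrev K : Type := GaloisField 2 3

/-- `R = F₈[X]`. -/
abbrev R : Type := Polynomial K

/-- `M = R³`. -/
abbrev M : Type := Fin 3 → R

/-- The elementary transvection `m ↦ m + r m_j e_i`. -/
def el (i j : Fin 3) (h : i ≠ j) (r : R) : M ≃ₗ[R] M where
  toFun m := m + Pi.single i (r * m j)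
  invFun m := m - Pi.single i (r * m j)
  map_add' m n := by
    rw [Pi.add_apply, mul_add, Pi.single_add]; abel
  map_smul' c m := by
    funext k
    rcases eq_or_ne k i with rfl | hk
    · simp; ring
    · simp [hk]
  left_inv m := by
    funext k
    rcases eq_or_ne k i with rfl | hk
    · simp [h.symm]
    · simp [hk]
  right_inv m := by
    funext k
    rcases eq_or_ne k i with rfl | hk
    · simp [h.symm]
    · simp [hk]

lemma el_apply (i j : Fin 3) (h : i ≠ j) (r : R) (m : M) :
    el i j h r m = m + Pi.single i (r * m j) := rfl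

lemma el_zero (i j : Fin 3) (h : i ≠ j) : el i j h 0 = 1 := by
  ext m k; simp [el_apply]

lemma el_add (i j : Fin 3) (h : i ≠ j) (r s : R) :
    el i j h (r + s) = el i j h r * el i j h s := by
  apply LinearEquiv.ext
  intro m
  change el i j h (r + s) m = el i j h r (el i j h s m)
  rw [el_apply, el_apply, el_apply]
  have : (m + Pi.single i (s * m j) : M) j = m j := by simp [h.symm]
  rw [this, add_mul, Pi.single_add]; abel

/-- The group `Γ`, generated by the `x₀₁(k)`, `x₁₂(k)`, `x₂₀(Xk)`, `k ∈ F₈`. -/
def Gam : Subgroup (M ≃ₗ[R] M) :=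
  Subgroup.closure ({g | ∃ k : K, g = el 0 1 (by decide) (C k)} ∪
    {g | ∃ k : K, g = el 1 2 (by decide) (C k)} ∪
    {g | ∃ k : K, g = el 2 0 (by decide) (X * C k)})

/-- A point of `X`: a linear form and a quadratic form on the `F₂`-vector space `M`. -/
@[ext] structure Pt where
  /-- the linear form -/
  f : M → ZMod 2
  /-- the quadratic form -/
  q : M → ZMod 2
  hf : ∀ x y, f (x + y) = f x + f y
  hq : ∀ x y z, q (x + y + z) = q (x + y) + q (x + z) + q (y + z) + q x + q y + q z

/-- Composition of the point with an additive map. -/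
def Pt.comp (x : Pt) (g : M → M) (hg : ∀ m n, g (m + n) = g m + g n) : Pt where
  f := x.f ∘ g
  q := x.q ∘ g
  hf a b := by simp only [Function.comp, hg, x.hf]
  hq a b c := by simp only [Function.comp, hg, x.hq]

/-- The set-theoretic lift `ZMod 2 → ZMod 4`. -/
def lift (a : ZMod 2) : ZMod 4 := (a.val : ZMod 4)

/-- The function `χ_m(f, q) = 2 f(m)`. -/
def chi (m : M) : Pt → ZMod 4 := fun x => 2 * lift (x.f m)

/-- The function `θ_m(f, q) = 2 q(m)` (`s = false`) or `f(m) + 2 q(m)` (`s = true`). -/
def th (s : Bool) (m : M) : Pt → ZMod 4 :=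
  fun x => (if s then lift (x.f m) else 0) + 2 * lift (x.q m)

/-- The abelian group `A₀` (`s = false`) or `A₁` (`s = true`). -/
def A (s : Bool) : AddSubgroup (Pt → ZMod 4) :=
  AddSubgroup.closure (Set.range (th s) ∪ Set.range chi)

lemma lift_zero : lift 0 = 0 := by decide

lemma two_lift_add : ∀ a b : ZMod 2, 2 * lift (a + b) = 2 * lift a + 2 * lift b := by decide

lemma lift_add : ∀ a b : ZMod 2, lift (a + b) = lift a + lift b + 2 * (lift a * lift b) := by
  decide

lemma two_lift_eq_zero : ∀ a : ZMod 2, 2 * lift a = 0 ↔ a = 0 := by decide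

lemma Pt.f_zero (x : Pt) : x.f 0 = 0 := by
  have := x.hf 0 0; rw [add_zero] at this; exact left_eq_add.mp this

lemma Pt.q_zero (x : Pt) : x.q 0 = 0 := by
  have := x.hq 0 0 0
  simp only [add_zero] at this
  revert this; generalize x.q 0 = a; revert a; decide

/-- The bilinear form of `q`. -/
def Pt.b (x : Pt) (m n : M) : ZMod 2 := x.q (m + n) + x.q m + x.q n

lemma Pt.b_comm (x : Pt) (m n : M) : x.b m n = x.b n m := by
  unfold Pt.b; rw [add_comm m n]; ring

lemma Pt.b_add (x : Pt) (m n k : M) : x.b (m + n) k = x.b m k + x.b n k := by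
  unfold Pt.b
  rw [x.hq m n k]
  generalize x.q (m + n) = a1; generalize x.q (m + k) = a2; generalize x.q (n + k) = a3
  generalize x.q m = a4; generalize x.q n = a5; generalize x.q k = a6
  revert a1 a2 a3 a4 a5 a6; decide

lemma Pt.b_add' (x : Pt) (m n k : M) : x.b m (n + k) = x.b m n + x.b m k := by
  rw [x.b_comm, x.b_add, x.b_comm n, x.b_comm k]

lemma two_mul_two_lift : ∀ a : ZMod 2, (2 : ZMod 4) * (2 * lift a) = 0 := by decide

section act

variable (s : Bool)

lemma th_mem (m : M) : th s m ∈ A s := AddSubgroup.subset_closure (Or.inl ⟨m, rfl⟩)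

lemma chi_mem (m : M) : chi m ∈ A s := AddSubgroup.subset_closure (Or.inr ⟨m, rfl⟩)

/-- `θ_m` as an element of `A s`. -/
def thA (m : M) : A s := ⟨th s m, th_mem s m⟩

lemma chi_add (m n : M) : chi (m + n) = chi m + chi n := by
  funext x; simp only [chi, Pi.add_apply, x.hf, two_lift_add]

/-- `χ_m` as an element of `A s`. -/
def chiA : M →+ A s where
  toFun m := ⟨chi m, chi_mem s m⟩
  map_zero' := by
    ext x; simp [chi, x.f_zero, lift_zero]
  map_add' m n := by
    apply Subtype.ext; exact chi_add m n

/-- The bilinear part. -/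
def be (m n : M) : Pt → ZMod 4 :=
  fun x => (if s then 2 * (lift (x.f m) * lift (x.f n)) else 0) + 2 * lift (x.b m n)

lemma th_add (m n : M) : th s (m + n) = th s m + th s n + be s m n := by
  funext x
  simp only [th, be, Pi.add_apply, x.hf, Pt.b]
  generalize x.q (m + n) = a; generalize x.q m = b; generalize x.q n = c
  generalize x.f m = d; generalize x.f n = e
  cases s <;> revert a b c d e <;> decide

lemma be_mem (m n : M) : be s m n ∈ A s := by
  have : be s m n = th s (m + n) - th s m - th s n := by rw [th_add]; abel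
  rw [this]
  exact sub_mem (sub_mem (th_mem s _) (th_mem s _)) (th_mem s _)

lemma be_add_left (m n k : M) : be s (m + n) k = be s m k + be s n k := by
  funext x
  simp only [be, Pi.add_apply, x.hf, x.b_add]
  generalize x.f m = a; generalize x.f n = b; generalize x.f k = c
  generalize x.b m k = d; generalize x.b n k = e
  cases s <;> revert a b c d e <;> decide

lemma be_comm (m n : M) : be s m n = be s n m := by
  funext x; simp only [be, x.b_comm m n, mul_comm (lift (x.f m))]

lemma be_add_right (m n k : M) : be s m (n + k) = be s m n + be s m k := by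
  rw [be_comm, be_add_left, be_comm s n, be_comm s k]

/-- The bilinear part as a biadditive map `M × M → A s`. -/
def beA : M →+ M →+ A s :=
  AddMonoidHom.mk' (fun m => AddMonoidHom.mk' (fun n => (⟨be s m n, be_mem s m n⟩ : A s))
    (fun n k => Subtype.ext (be_add_right s m n k)))
    (fun m n => by
      apply AddMonoidHom.ext; intro k; exact Subtype.ext (be_add_left s m n k))

lemma thA_add (m n : M) : thA s (m + n) = thA s m + thA s n + beA s m n :=
  Subtype.ext (th_add s m n)

/-- The action of an additive bijection of `M` on functions on `X`. -/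
def pull (g : M ≃ₗ[R] M) (a : Pt → ZMod 4) : Pt → ZMod 4 :=
  fun x => a (x.comp g (map_add g))

lemma pull_th (g : M ≃ₗ[R] M) (m : M) : pull g (th s m) = th s (g m) := rfl

lemma pull_chi (g : M ≃ₗ[R] M) (m : M) : pull g (chi m) = chi (g m) := rfl

lemma pull_add (g : M ≃ₗ[R] M) (a b : Pt → ZMod 4) : pull g (a + b) = pull g a + pull g b := rfl

lemma pull_neg (g : M ≃ₗ[R] M) (a : Pt → ZMod 4) : pull g (-a) = - pull g a := rfl

lemma pull_mul (g h : M ≃ₗ[R] M) (a : Pt → ZMod 4) : pull (g * h) a = pull g (pull h a) := rfl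

lemma pull_one (a : Pt → ZMod 4) : pull 1 a = a := rfl

lemma pull_mem (g : M ≃ₗ[R] M) {a : Pt → ZMod 4} (ha : a ∈ A s) : pull g a ∈ A s := by
  unfold A at ha
  induction ha using AddSubgroup.closure_induction with
  | mem a ha =>
    rcases ha with ⟨m, rfl⟩ | ⟨m, rfl⟩
    · exact th_mem s (g m)
    · exact chi_mem s (g m)
  | zero => exact zero_mem _
  | add a b _ _ h1 h2 => exact add_mem h1 h2
  | neg a _ h1 => exact neg_mem h1

/-- The action of a linear automorphism on `A s`. -/
def sm (g : M ≃ₗ[R] M) (a : A s) : A s := ⟨pull g a.1, pull_mem s g a.2⟩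

lemma sm_thA (g : M ≃ₗ[R] M) (m : M) : sm s g (thA s m) = thA s (g m) := rfl

lemma sm_chiA (g : M ≃ₗ[R] M) (m : M) : sm s g (chiA s m) = chiA s (g m) := rfl

lemma sm_beA (g : M ≃ₗ[R] M) (m n : M) : sm s g (beA s m n) = beA s (g m) (g n) := by
  apply Subtype.ext; funext x
  change be s m n (x.comp g (map_add g)) = be s (g m) (g n) x
  simp only [be, Pt.b, Pt.comp, Function.comp, map_add]

lemma sm_add (g : M ≃ₗ[R] M) (a b : A s) : sm s g (a + b) = sm s g a + sm s g b := rfl

lemma sm_mul (g h : M ≃ₗ[R] M) (a : A s) : sm s (g * h) a = sm s g (sm s h a) := rfl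

lemma sm_one (a : A s) : sm s 1 a = a := rfl

/-- `Γ` acts on `A s` by automorphisms. -/
def phi : Gam →* MulAut (Multiplicative (A s)) where
  toFun g := AddEquiv.toMultiplicative
    { toFun := sm s g.1
      invFun := sm s g.1⁻¹
      left_inv := fun a => by rw [← sm_mul, inv_mul_cancel, sm_one]
      right_inv := fun a => by rw [← sm_mul, mul_inv_cancel, sm_one]
      map_add' := sm_add s g.1 }
  map_one' := rfl
  map_mul' _ _ := rfl

lemma phi_apply (g : Gam) (a : A s) :
    phi s g (Multiplicative.ofAdd a) = Multiplicative.ofAdd (sm s g.1 a) := rfl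

end act

/-- The groups `G₀ = A₀ ⋊ Γ` and `G₁ = A₁ ⋊ Γ`. -/
abbrev GG (s : Bool) : Type := Multiplicative (A s) ⋊[phi s] Gam

end

end Vale.Agent.P092.Gen
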