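import Vale.Agent.P092.Gen.Defs

/-!
# Definitions for the final statement
-/

namespace Vale.Agent.P092.Gen

universe v w

noncomputable section

section

variable {H₀ : Type v} {H₁ : Type w}
  [NormedAddCommGroup H₀] [InnerProductSpace ℂ H₀]
  [NormedAddCommGroup H₁] [InnerProductSpace ℂ H₁]

/-- Conjugation `x ↦ W x W*` by a unitary `W`. -/
def cj (W : H₀ ≃ₗᵢ[ℂ] H₁) (x : H₀ →L[ℂ] H₀) : H₁ →L[ℂ] H₁ :=
  (W : H₀ →L[ℂ] H₁).comp (x.comp (W.symm : H₁ →L[ℂ] H₀))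

/-- The complex group ring of `G` on `ℓ²(G)`: the linear span of the `u_g`. -/
def grpRing {G : Type} [Group G] [CompleteSpace H₀] (b : HilbertBasis G ℂ H₀) :
    Set (H₀ →L[ℂ] H₀) :=
  (Submodule.span ℂ (Set.range (uu b)) : Submodule ℂ (H₀ →L[ℂ] H₀))

end

/-- One unitary `ℓ²(G₀) → ℓ²(G₁)` (for any realizations of these spaces) sends `δ_1` to `δ_1` and
conjugates the complex group ring of `G₀` onto that of `G₁` and `L(G₀)` onto `L(G₁)`. -/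
def SameAlgebras (G₀ G₁ : Type) [Group G₀] [Group G₁] : Prop :=
  ∀ (H₀ : Type v) (H₁ : Type w)
    [NormedAddCommGroup H₀] [InnerProductSpace ℂ H₀] [CompleteSpace H₀]
    [NormedAddCommGroup H₁] [InnerProductSpace ℂ H₁] [CompleteSpace H₁]
    (b₀ : HilbertBasis G₀ ℂ H₀) (b₁ : HilbertBasis G₁ ℂ H₁),
    ∃ W : H₀ ≃ₗᵢ[ℂ] H₁, W (b₀ 1) = b₁ 1 ∧ cj W '' grpRing b₀ = grpRing b₁ ∧
      cj W '' LGrp b₀ = LGrp b₁

/-- No finite index subgroup of `G₀` is isomorphic to a finite index subgroup of `G₁`. -/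
def NotVirtuallyIso (G₀ G₁ : Type) [Group G₀] [Group G₁] : Prop :=
  ∀ (S₀ : Subgroup G₀) (S₁ : Subgroup G₁), S₀.FiniteIndex → S₁.FiniteIndex →
    IsEmpty (S₀ ≃* S₁)

end

end Vale.Agent.P092.Gen
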