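import Mathlib

open scoped InnerProductSpace

namespace Vale.Agent.P092.Gen

/-- A nonzero vector moved by at most half of its norm by the whole group gives a nonzero
invariant vector. -/
theorem exists_fix {G H : Type*} [Group G] [NormedAddCommGroup H] [InnerProductSpace ℂ H]
    [CompleteSpace H] (π : G →* (H ≃ₗᵢ[ℂ] H)) (v : H) (hv : v ≠ 0)
    (h : ∀ g, ‖π g v - v‖ ≤ ‖v‖ / 2) : ∃ w : H, w ≠ 0 ∧ ∀ g, π g w = w := by
  letI : InnerProductSpace ℝ H := InnerProductSpace.rclikeToReal ℂ H
  set S : Set H := Set.range fun g => π g v with hS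
  set Co : Set H := closure (convexHull ℝ S) with hCo
  have hne : Co.Nonempty := ⟨π 1 v, subset_closure (subset_convexHull ℝ S ⟨1, rfl⟩)⟩
  have hconv : Convex ℝ Co := (convex_convexHull ℝ S).closure
  have hcomp : IsComplete Co := isClosed_closure.isComplete
  obtain ⟨w, hw, hmin⟩ := exists_norm_eq_iInf_of_complete_convex hne hcomp hconv (0 : H)
  have hle : ∀ c ∈ Co, ‖w‖ ≤ ‖c‖ := by
    intro c hc
    have h1 : ‖(0 : H) - w‖ ≤ ‖(0 : H) - c‖ := by
      rw [hmin]
      exact ciInf_le ⟨0, by rintro _ ⟨x, rfl⟩; exact norm_nonneg _⟩ (⟨c, hc⟩ : Co)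
    simpa using h1
  have hinv : ∀ g, ∀ c ∈ Co, π g c ∈ Co := by
    intro g c hc
    have hS' : (π g) '' S ⊆ S := by
      rintro _ ⟨_, ⟨k, rfl⟩, rfl⟩
      exact ⟨g * k, by simp [map_mul]⟩
    have hlin : (π g) '' (convexHull ℝ S) ⊆ convexHull ℝ S := by
      have := (((π g).toLinearEquiv.toLinearMap.restrictScalars ℝ).image_convexHull S).subset
      refine Set.Subset.trans (?_ : _ ⊆ convexHull ℝ ((π g) '' S)) (convexHull_mono hS')
      exact this
    have hc2 : π g c ∈ closure ((π g) '' (convexHull ℝ S)) :=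
      image_closure_subset_closure_image (π g).continuous ⟨c, hc, rfl⟩
    exact closure_mono hlin hc2
  refine ⟨w, ?_, fun g => ?_⟩
  · rintro rfl
    have hball : Co ⊆ Metric.closedBall v (‖v‖ / 2) := by
      refine closure_minimal (convexHull_min ?_ (convex_closedBall _ _)) Metric.isClosed_closedBall
      rintro _ ⟨g, rfl⟩
      rw [Metric.mem_closedBall, dist_eq_norm]
      exact h g
    have h1 := hball hw
    rw [Metric.mem_closedBall, dist_eq_norm, zero_sub, norm_neg] at h1
    have h2 : 0 < ‖v‖ := norm_pos_iff.mpr hv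
    linarith
  · have h1 := hinv g w hw
    have hmid : (1 / 2 : ℝ) • w + (1 / 2 : ℝ) • π g w ∈ Co :=
      hconv hw h1 (by norm_num) (by norm_num) (by norm_num)
    have h2 := hle _ hmid
    rw [← smul_add, norm_smul] at h2
    have h3 : ‖π g w‖ = ‖w‖ := (π g).norm_map w
    have h4 := parallelogram_law_with_norm ℝ w (π g w)
    rw [h3] at h4
    have h5 : ‖w + π g w‖ ≥ 2 * ‖w‖ := by
      rw [Real.norm_of_nonneg (by norm_num)] at h2; linarith
    have h6 : ‖w - π g w‖ * ‖w - π g w‖ ≤ 0 := by nlinarith [norm_nonneg w]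
    have h7 : ‖w - π g w‖ = 0 := by nlinarith [norm_nonneg (w - π g w)]
    exact (sub_eq_zero.mp (norm_eq_zero.mp h7)).symm

end Vale.Agent.P092.Gen
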