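import Mathlib

open scoped InnerProductSpace ComplexConjugate

namespace Vale.Agent.P092.Gen

section chars

variable {D H : Type*} [AddCommGroup D] [Fintype D] [NormedAddCommGroup H]
  [InnerProductSpace ℂ H] (ρ : Multiplicative D →* (H ≃ₗᵢ[ℂ] H))

/-- The component of `x` for the character `χ`. -/
noncomputable def cmp (x : H) (χ : AddChar D ℂ) : H :=
  ((Fintype.card D : ℂ)⁻¹) • ∑ d : D, χ (-d) • ρ (Multiplicative.ofAdd d) x

lemma sum_cmp (x : H) : ∑ χ : AddChar D ℂ, cmp ρ x χ = x := by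
  classical
  unfold cmp
  rw [← Finset.smul_sum, Finset.sum_comm]
  have h : ∀ d : D, ∑ χ : AddChar D ℂ, χ (-d) • ρ (Multiplicative.ofAdd d) x =
      if d = 0 then (Fintype.card D : ℂ) • x else 0 := by
    intro d
    rw [← Finset.sum_smul, AddChar.sum_apply_eq_ite]
    by_cases hd : d = 0
    · subst hd; simp
    · simp [hd]
  rw [Finset.sum_congr rfl fun d _ => h d, Finset.sum_ite_eq' Finset.univ (0 : D)]
  rw [if_pos (Finset.mem_univ _), smul_smul, inv_mul_cancel₀ (by simp), one_smul]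

lemma rho_cmp (x : H) (χ : AddChar D ℂ) (e : D) :
    ρ (Multiplicative.ofAdd e) (cmp ρ x χ) = χ e • cmp ρ x χ := by
  unfold cmp
  rw [map_smul, map_sum, smul_comm]
  congr 1
  rw [Finset.smul_sum]
  refine Fintype.sum_equiv (Equiv.addLeft e) _ _ fun d => ?_
  rw [map_smul, smul_smul, Equiv.coe_addLeft]
  have h1 : χ e * χ (-(e + d)) = χ (-d) := by
    rw [← AddChar.map_add_eq_mul]; congr 1; abel
  rw [h1, ofAdd_add, map_mul]; rfl

lemma orth_cmp (x y : H) {χ ψ : AddChar D ℂ} (h : χ ≠ ψ) :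
    ⟪cmp ρ x χ, cmp ρ y ψ⟫_ℂ = 0 := by
  obtain ⟨e, he⟩ : ∃ e, χ e ≠ ψ e := by
    by_contra hc; push Not at hc; exact h (DFunLike.ext _ _ hc)
  have h1 := (ρ (Multiplicative.ofAdd e)).inner_map_map (cmp ρ x χ) (cmp ρ y ψ)
  rw [rho_cmp, rho_cmp, inner_smul_left, inner_smul_right, ← mul_assoc] at h1
  by_contra hne
  have h2 : conj (χ e) * ψ e = 1 := by
    have : (conj (χ e) * ψ e - 1) * ⟪cmp ρ x χ, cmp ρ y ψ⟫_ℂ = 0 := by
      rw [sub_mul, h1, one_mul, sub_self]
    rcases mul_eq_zero.mp this with h3 | h3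
    · exact sub_eq_zero.mp h3
    · exact absurd h3 hne
  apply he
  rw [← AddChar.map_neg_eq_conj] at h2
  calc χ e = χ e * (χ (-e) * ψ e) := by rw [h2, mul_one]
    _ = (χ e * χ (-e)) * ψ e := by ring
    _ = ψ e := by rw [← AddChar.map_add_eq_mul, add_neg_cancel, AddChar.map_zero_eq_one, one_mul]

lemma normsq_sum (x : H) (c : AddChar D ℂ → ℂ) :
    ‖∑ χ : AddChar D ℂ, c χ • cmp ρ x χ‖ ^ 2 = ∑ χ : AddChar D ℂ, ‖c χ‖ ^ 2 * ‖cmp ρ x χ‖ ^ 2 := by
  have h : ⟪∑ χ : AddChar D ℂ, c χ • cmp ρ x χ, ∑ χ : AddChar D ℂ, c χ • cmp ρ x χ⟫_ℂ =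
      ∑ χ : AddChar D ℂ, (((‖c χ‖ ^ 2 * ‖cmp ρ x χ‖ ^ 2 : ℝ)) : ℂ) := by
    rw [sum_inner]
    refine Finset.sum_congr rfl fun χ _ => ?_
    rw [inner_sum, Finset.sum_eq_single χ]
    · rw [inner_self_eq_norm_sq_to_K, norm_smul]
      simp only [Complex.coe_algebraMap, Complex.ofReal_mul, Complex.ofReal_pow]
      ring
    · intro ψ _ hψ
      rw [inner_smul_left, inner_smul_right, orth_cmp ρ x x hψ.symm, mul_zero, mul_zero]
    · intro hx; exact absurd (Finset.mem_univ _) hx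
  have h2 := inner_self_eq_norm_sq_to_K (𝕜 := ℂ) (∑ χ : AddChar D ℂ, c χ • cmp ρ x χ)
  rw [h] at h2
  have h3 := congrArg Complex.re h2
  rw [← Complex.ofReal_sum] at h3
  simp only [Complex.coe_algebraMap] at h3
  rw [← Complex.ofReal_pow, Complex.ofReal_re, Complex.ofReal_re] at h3
  exact h3.symm

lemma disp (x : H) (e : D) : ‖ρ (Multiplicative.ofAdd e) x - x‖ ^ 2 =
    ∑ χ : AddChar D ℂ, ‖χ e - 1‖ ^ 2 * ‖cmp ρ x χ‖ ^ 2 := by
  rw [← normsq_sum ρ x fun χ => χ e - 1]
  congr 2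
  have h1 : ρ (Multiplicative.ofAdd e) x = ∑ χ : AddChar D ℂ, χ e • cmp ρ x χ := by
    conv_lhs => rw [← sum_cmp ρ x]
    rw [map_sum]
    exact Finset.sum_congr rfl fun χ _ => rho_cmp ρ x χ e
  conv_lhs => rw [h1, ← sum_cmp ρ x]
  rw [← Finset.sum_sub_distrib]
  refine Finset.sum_congr rfl fun χ _ => ?_
  rw [sum_cmp ρ x, sub_smul, one_smul]

end chars

section count

variable {D M : Type*} [AddCommGroup D] [Fintype D] [AddCommGroup M] [Fintype M]

lemma count (b : M →+ M →+ D) (hb : AddSubgroup.closure {a | ∃ m n, a = b m n} = ⊤)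
    (χ : AddChar D ℂ) (hχ : χ ≠ 1) :
    (Fintype.card M : ℝ) ^ 2 ≤ ∑ m : M, ∑ n : M, ‖χ (b m n) - 1‖ ^ 2 := by
  classical
  -- the characters `n ↦ χ (b m n)`
  set ψ : M → AddChar M ℂ := fun m => χ.compAddMonoidHom (b m) with hψ
  have hψa : ∀ m n, ψ m n = χ (b m n) := fun m n => rfl
  have hsum : ∀ m, ∑ n : M, χ (b m n) = if ψ m = 0 then (Fintype.card M : ℂ) else 0 := by
    intro m
    have := AddChar.sum_eq_ite (ψ m)
    simpa only [hψa] using this
  have hnorm : ∀ m n, ‖χ (b m n) - 1‖ ^ 2 = 2 - 2 * (χ (b m n)).re := by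
    intro m n
    have h1 : ‖χ (b m n)‖ = 1 := AddChar.norm_apply χ _
    have h2 : ‖χ (b m n)‖ ^ 2 = (χ (b m n)).re ^ 2 + (χ (b m n)).im ^ 2 := by
      rw [← Complex.normSq_eq_norm_sq, Complex.normSq_apply]; ring
    rw [h1] at h2
    rw [← Complex.normSq_eq_norm_sq, Complex.normSq_apply]
    simp only [Complex.sub_re, Complex.sub_im, Complex.one_re, Complex.one_im]
    nlinarith
  set T : Finset M := Finset.univ.filter fun m => ψ m = 0 with hT
  have hTcard : 2 * T.card ≤ Fintype.card M := by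
    -- some `m₀` is outside
    obtain ⟨m₀, hm₀⟩ : ∃ m₀, ψ m₀ ≠ 0 := by
      by_contra hc
      push Not at hc
      apply hχ
      have h1 : ∀ a : D, χ a = 1 := by
        intro a
        have ha : a ∈ AddSubgroup.closure {a | ∃ m n, a = b m n} := by
          rw [hb]; trivial
        induction ha using AddSubgroup.closure_induction with
        | mem a ha =>
          obtain ⟨m, n, rfl⟩ := ha
          rw [← hψa, hc m]; rfl
        | zero => exact AddChar.map_zero_eq_one χ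
        | add a c _ _ h1 h2 => rw [AddChar.map_add_eq_mul, h1, h2, one_mul]
        | neg a _ h1 => rw [AddChar.map_neg_eq_inv, h1, inv_one]
      ext a; rw [h1]; rfl
    have hadd : ∀ m m', ψ (m + m') = ψ m + ψ m' := by
      intro m m'; ext n
      rw [AddChar.add_apply, hψa, hψa, hψa, map_add, AddMonoidHom.add_apply,
        AddChar.map_add_eq_mul]
    have hdisj : Disjoint T (T.image (m₀ + ·)) := by
      rw [Finset.disjoint_left]
      intro m hm hm'
      rw [Finset.mem_image] at hm'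
      obtain ⟨m', hm', rfl⟩ := hm'
      rw [hT, Finset.mem_filter] at hm hm'
      rw [hadd, hm'.2, add_zero] at hm
      exact hm₀ hm.2
    have hc : (T.image (m₀ + ·)).card = T.card :=
      Finset.card_image_of_injective _ (add_right_injective m₀)
    have := Finset.card_le_univ (T ∪ T.image (m₀ + ·))
    rw [Finset.card_union_of_disjoint hdisj, hc] at this
    omega
  have hre : ∑ m : M, ∑ n : M, (χ (b m n)).re = (Fintype.card M : ℝ) * T.card := by
    have h1 : ∀ m, ∑ n : M, (χ (b m n)).re = if ψ m = 0 then (Fintype.card M : ℝ) else 0 := by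
      intro m
      rw [← Complex.re_sum, hsum m]
      split_ifs <;> simp
    rw [Finset.sum_congr rfl fun m _ => h1 m, ← Finset.sum_filter, Finset.sum_const, nsmul_eq_mul,
      mul_comm]
  have h3 : ∑ m : M, ∑ n : M, ‖χ (b m n) - 1‖ ^ 2 =
      2 * (Fintype.card M : ℝ) ^ 2 - 2 * ((Fintype.card M : ℝ) * T.card) := by
    rw [← hre, Finset.mul_sum]
    simp_rw [hnorm, Finset.sum_sub_distrib, ← Finset.mul_sum]
    simp [Finset.card_univ]; ring
  rw [h3]
  have h4 : (2 : ℝ) * T.card ≤ Fintype.card M := by exact_mod_cast hTcard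
  have h5 : (0 : ℝ) ≤ Fintype.card M := by positivity
  nlinarith

variable {H : Type*} [NormedAddCommGroup H] [InnerProductSpace ℂ H]

lemma four_fin (ρ : Multiplicative D →* (H ≃ₗᵢ[ℂ] H)) (b : M →+ M →+ D)
    (hb : AddSubgroup.closure {a | ∃ m n, a = b m n} = ⊤) (x : H) (e : ℝ)
    (he : ∀ m n, ‖ρ (Multiplicative.ofAdd (b m n)) x - x‖ ≤ e) (a : D) :
    ‖ρ (Multiplicative.ofAdd a) x - x‖ ≤ 2 * e := by
  classical
  have he0 : 0 ≤ e := (norm_nonneg _).trans (he 0 0)
  set W : ℝ := ∑ χ ∈ (Finset.univ.erase (1 : AddChar D ℂ)), ‖cmp ρ x χ‖ ^ 2 with hW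
  have h1 : (Fintype.card M : ℝ) ^ 2 * W ≤ (Fintype.card M : ℝ) ^ 2 * e ^ 2 := by
    calc (Fintype.card M : ℝ) ^ 2 * W
        = ∑ χ ∈ (Finset.univ.erase (1 : AddChar D ℂ)),
            (Fintype.card M : ℝ) ^ 2 * ‖cmp ρ x χ‖ ^ 2 := by rw [hW, Finset.mul_sum]
      _ ≤ ∑ χ ∈ (Finset.univ.erase (1 : AddChar D ℂ)),
            (∑ m : M, ∑ n : M, ‖χ (b m n) - 1‖ ^ 2) * ‖cmp ρ x χ‖ ^ 2 := by
          refine Finset.sum_le_sum fun χ hχ => ?_
          exact mul_le_mul_of_nonneg_right (count b hb χ (Finset.ne_of_mem_erase hχ))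
            (by positivity)
      _ ≤ ∑ χ : AddChar D ℂ,
            (∑ m : M, ∑ n : M, ‖χ (b m n) - 1‖ ^ 2) * ‖cmp ρ x χ‖ ^ 2 := by
          refine Finset.sum_le_sum_of_subset_of_nonneg (Finset.erase_subset _ _) ?_
          intro χ _ _
          positivity
      _ = ∑ m : M, ∑ n : M, ‖ρ (Multiplicative.ofAdd (b m n)) x - x‖ ^ 2 := by
          simp_rw [disp ρ x, Finset.sum_mul]
          rw [Finset.sum_comm]
          refine Finset.sum_congr rfl fun m _ => ?_
          rw [Finset.sum_comm]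
      _ ≤ ∑ m : M, ∑ n : M, e ^ 2 := by
          refine Finset.sum_le_sum fun m _ => Finset.sum_le_sum fun n _ => ?_
          exact pow_le_pow_left₀ (norm_nonneg _) (he m n) 2
      _ = (Fintype.card M : ℝ) ^ 2 * e ^ 2 := by
          simp [Finset.card_univ]; ring
  have hc : (0 : ℝ) < (Fintype.card M : ℝ) ^ 2 := by
    have : 0 < Fintype.card M := Fintype.card_pos
    positivity
  have h2 : W ≤ e ^ 2 := le_of_mul_le_mul_left h1 hc
  have h3 : ‖ρ (Multiplicative.ofAdd a) x - x‖ ^ 2 ≤ 4 * W := by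
    rw [disp, hW, Finset.mul_sum, ← Finset.add_sum_erase _ _ (Finset.mem_univ (1 : AddChar D ℂ))]
    have h4 : ‖(1 : AddChar D ℂ) a - 1‖ ^ 2 * ‖cmp ρ x 1‖ ^ 2 = 0 := by simp
    rw [h4, zero_add]
    refine Finset.sum_le_sum fun χ _ => ?_
    refine mul_le_mul_of_nonneg_right ?_ (by positivity)
    have h5 : ‖χ a - 1‖ ≤ 2 := by
      have := norm_sub_le (χ a) 1
      rw [AddChar.norm_apply, norm_one] at this
      linarith
    nlinarith [norm_nonneg (χ a - 1)]
  have h6 : ‖ρ (Multiplicative.ofAdd a) x - x‖ ^ 2 ≤ (2 * e) ^ 2 := by nlinarith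
  exact le_of_sq_le_sq h6 (by positivity)

end count

lemma finite_closure {A : Type*} [AddCommGroup A] (S : Set A) (hS : S.Finite)
    (h2 : ∀ a ∈ S, a + a = 0) : Finite (AddSubgroup.closure S) := by
  have : Finite S := hS
  have hfg : AddGroup.FG (AddSubgroup.closure S) := AddGroup.closure_finite_fg S
  refine AddCommGroup.finite_of_fg_isAddTorsion _ (fun x => ?_)
  have hx : x.1 + x.1 = 0 := by
    obtain ⟨x, hx⟩ := x
    induction hx using AddSubgroup.closure_induction with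
    | mem a ha => exact h2 a ha
    | zero => simp
    | add a b _ _ h1 h2 =>
      simp only at h1 h2 ⊢
      rw [add_add_add_comm, h1, h2, add_zero]
    | neg a _ h1 =>
      simp only at h1 ⊢
      rw [← neg_add, h1, neg_zero]
  rw [isOfFinAddOrder_iff_nsmul_eq_zero]
  exact ⟨2, by norm_num, by rw [two_nsmul]; exact Subtype.ext hx⟩

/-- If all values `β(m, n)` of a biadditive map move `v` by at most `e`, then the subgroup generated
by them moves `v` by at most `2 e`. -/
theorem four {A M H : Type*} [AddCommGroup A] [AddCommGroup M] [NormedAddCommGroup H]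
    [InnerProductSpace ℂ H] (π : Multiplicative A →* (H ≃ₗᵢ[ℂ] H)) (β : M →+ M →+ A)
    (h2 : ∀ m : M, m + m = 0) (v : H) (e : ℝ)
    (he : ∀ m n, ‖π (Multiplicative.ofAdd (β m n)) v - v‖ ≤ e) :
    ∀ a ∈ AddSubgroup.closure {a | ∃ m n, a = β m n},
      ‖π (Multiplicative.ofAdd a) v - v‖ ≤ 2 * e := by
  classical
  -- it suffices to use a finite subgroup of `M`
  have key : ∀ a ∈ AddSubgroup.closure {a | ∃ m n, a = β m n}, ∃ S : Finset M,
      a ∈ AddSubgroup.closure {a | ∃ m ∈ AddSubgroup.closure (S : Set M),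
        ∃ n ∈ AddSubgroup.closure (S : Set M), a = β m n} := by
    intro a ha
    have mono : ∀ S T : Finset M, S ⊆ T →
        AddSubgroup.closure {a | ∃ m ∈ AddSubgroup.closure (S : Set M),
          ∃ n ∈ AddSubgroup.closure (S : Set M), a = β m n} ≤
        AddSubgroup.closure {a | ∃ m ∈ AddSubgroup.closure (T : Set M),
          ∃ n ∈ AddSubgroup.closure (T : Set M), a = β m n} := by
      intro S T hST
      apply AddSubgroup.closure_mono
      rintro a ⟨m, hm, n, hn, rfl⟩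
      exact ⟨m, AddSubgroup.closure_mono (by exact_mod_cast hST) hm, n,
        AddSubgroup.closure_mono (by exact_mod_cast hST) hn, rfl⟩
    induction ha using AddSubgroup.closure_induction with
    | mem a ha =>
      obtain ⟨m, n, rfl⟩ := ha
      exact ⟨{m, n}, AddSubgroup.subset_closure ⟨m, AddSubgroup.subset_closure (by simp), n,
        AddSubgroup.subset_closure (by simp), rfl⟩⟩
    | zero => exact ⟨∅, zero_mem _⟩
    | add a b _ _ h1 h2 =>
      obtain ⟨S, hS⟩ := h1
      obtain ⟨T, hT⟩ := h2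
      exact ⟨S ∪ T, add_mem (mono S _ Finset.subset_union_left hS)
        (mono T _ Finset.subset_union_right hT)⟩
    | neg a _ h1 =>
      obtain ⟨S, hS⟩ := h1
      exact ⟨S, neg_mem hS⟩
  intro a ha
  obtain ⟨S, hS⟩ := key a ha
  set M₀ := AddSubgroup.closure (S : Set M) with hM₀
  set T : Set A := {a | ∃ m ∈ M₀, ∃ n ∈ M₀, a = β m n} with hT
  set D := AddSubgroup.closure T with hD
  have hfM : Finite M₀ := finite_closure _ S.finite_toSet fun m _ => h2 m
  have hfT : T.Finite := by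
    have h : T ⊆ Set.range fun p : M₀ × M₀ => β p.1.1 p.2.1 := by
      rintro a ⟨m, hm, n, hn, rfl⟩; exact ⟨(⟨m, hm⟩, ⟨n, hn⟩), rfl⟩
    exact (Set.finite_range _).subset h
  have hfD : Finite D := finite_closure _ hfT (by
    rintro a ⟨m, hm, n, hn, rfl⟩
    rw [← AddMonoidHom.add_apply, ← map_add, h2, map_zero, AddMonoidHom.zero_apply])
  have := Fintype.ofFinite M₀
  have := Fintype.ofFinite D
  let b : M₀ →+ M₀ →+ D := AddMonoidHom.mk' (fun m => AddMonoidHom.mk'
    (fun n => (⟨β m.1 n.1, AddSubgroup.subset_closure ⟨m.1, m.2, n.1, n.2, rfl⟩⟩ : D))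
    (fun n k => Subtype.ext (map_add (β m.1) n.1 k.1)))
    (fun m n => by
      apply AddMonoidHom.ext; intro k
      exact Subtype.ext (by
        change β (m.1 + n.1) k.1 = β m.1 k.1 + β n.1 k.1
        rw [map_add, AddMonoidHom.add_apply]))
  have hb : AddSubgroup.closure {a | ∃ m n, a = b m n} = ⊤ := by
    rw [eq_top_iff]
    rintro ⟨x, hx⟩ -
    induction hx using AddSubgroup.closure_induction with
    | mem a ha =>
      obtain ⟨m, hm, n, hn, rfl⟩ := ha
      exact AddSubgroup.subset_closure ⟨⟨m, hm⟩, ⟨n, hn⟩, rfl⟩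
    | zero => exact zero_mem _
    | add a b _ _ h1 h2 => exact add_mem h1 h2
    | neg a _ h1 => exact neg_mem h1
  have := four_fin (π.comp (AddMonoidHom.toMultiplicative D.subtype)) b hb v e
    (fun m n => he m.1 n.1) ⟨a, hS⟩
  exact this

end Vale.Agent.P092.Gen
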