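import Vale.Agent.P092.Gen.Basic

/-!
# Conjugacy classes: the groups `GG s` are countable, ICC and not isomorphic
-/

open Polynomial

namespace Vale.Agent.P092.Gen

noncomputable section

/-! ## Scalars in `Γ` -/

lemma elX_mem {i j : Fin 3} (h : i ≠ j) (r : R) : el i j h (X * r) ∈ Gam := by
  fin_cases i <;> fin_cases j
  · exact absurd rfl h
  · exact el01_mem _
  · exact el02_mem _
  · exact el10_mem _
  · exact absurd rfl h
  · exact el12_mem _
  · exact el20_mem _
  · exact el21_mem _
  · exact absurd rfl h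

lemma coeff_gam (g : M ≃ₗ[R] M) (hg : g ∈ Gam) : ∀ m : M, (g m 2).coeff 0 = (m 2).coeff 0 := by
  unfold Gam at hg
  induction hg using Subgroup.closure_induction with
  | mem g hg =>
    intro m
    rcases hg with (⟨k, rfl⟩ | ⟨k, rfl⟩) | ⟨k, rfl⟩
    · rw [el_apply]; simp
    · rw [el_apply]; simp
    · rw [el_apply]; simp [mul_assoc]
  | one => intro m; rfl
  | mul g h _ _ h1 h2 => intro m; rw [LinearEquiv.mul_apply, h1, h2]
  | inv g _ h1 =>
    intro m
    have := h1 (g⁻¹ m)
    rw [← this, ← LinearEquiv.mul_apply, mul_inv_cancel]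
    rfl

/-- An element of `Γ` which is a scalar is trivial. -/
lemma scalar_eq_one (g : M ≃ₗ[R] M) (hg : g ∈ Gam) (l : R) (h : ∀ m, g m = l • m) : g = 1 := by
  have h2 : IsUnit l := by
    have h3 := congrFun (g.apply_symm_apply (Pi.single 2 1 : M)) 2
    rw [h] at h3
    simp only [Pi.smul_apply, smul_eq_mul, Pi.single_eq_same] at h3
    exact IsUnit.of_mul_eq_one _ h3
  obtain ⟨c, hc, rfl⟩ := Polynomial.isUnit_iff.1 h2
  have h4 := coeff_gam g hg (Pi.single 2 1 : M)
  rw [h] at h4
  simp at h4
  apply LinearEquiv.ext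
  intro m
  rw [h, h4]
  simp

lemma scalar_of_basis (g : M ≃ₗ[R] M) (l : R)
    (hg : ∀ i : Fin 3, g (Pi.single i 1) = l • Pi.single i 1) (m : M) : g m = l • m := by
  have hm : m = ∑ i, m i • (Pi.single i 1 : M) := by
    funext k
    simp [Finset.sum_apply, Pi.single_apply]
  conv_lhs => rw [hm]
  conv_rhs => rw [hm]
  rw [map_sum, Finset.smul_sum]
  refine Finset.sum_congr rfl fun i _ => ?_
  rw [map_smul, hg, smul_comm]

/-- Commutation with the transvections in all positions forces a scalar. -/
lemma scalar_of_comm (g : M ≃ₗ[R] M)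
    (h : ∀ i j : Fin 3, ∀ hij : i ≠ j, ∃ r : R, r ≠ 0 ∧
      ∀ m, g (el i j hij r m) = el i j hij r (g m)) : ∃ l : R, ∀ m, g m = l • m := by
  have key : ∀ i j : Fin 3, i ≠ j → g (Pi.single i 1) = (g (Pi.single j 1) j) • Pi.single i 1 := by
    intro i j hij
    obtain ⟨r, hr, h1⟩ := h i j hij
    have h2 := h1 (Pi.single j 1)
    rw [el_apply, el_apply, map_add] at h2
    have h3 := add_left_cancel h2
    rw [Pi.single_eq_same, mul_one] at h3
    have h4 : (Pi.single i r : M) = r • Pi.single i 1 := by
      funext k; by_cases hk : k = i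
      · subst hk; simp
      · simp [hk]
    rw [h4, map_smul] at h3
    have h5 : (Pi.single i (r * g (Pi.single j 1) j) : M) =
        r • ((g (Pi.single j 1) j) • (Pi.single i 1 : M)) := by
      funext k; by_cases hk : k = i
      · subst hk; simp
      · simp [hk]
    rw [h5] at h3
    exact smul_right_injective M hr h3
  have hd : ∀ i j : Fin 3, i ≠ j → g (Pi.single i 1) i = g (Pi.single j 1) j := by
    intro i j hij
    have := congrFun (key i j hij) i
    simpa using this
  refine ⟨g (Pi.single 0 1) 0, fun m => scalar_of_basis g _ (fun i => ?_) m⟩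
  by_cases hi : i = 0
  · subst hi
    have := key 0 1 (by decide)
    rw [this]
    congr 1
    rw [← hd 0 1 (by decide)]
    simp
  · exact key i 0 hi

/-- In an infinite family of transvections, two have the same value under a map with finite
range. -/
lemma exists_pow_ne {α : Type*} (F : ℕ → α) (hF : (Set.range F).Finite) (N : ℕ) :
    ∃ a b, N ≤ a ∧ a < b ∧ F a = F b := by
  have h1 : Set.MapsTo F (Set.Ici N) (Set.range F) := fun a _ => ⟨a, rfl⟩
  obtain ⟨a, ha, b, hb, hab, h2⟩ := (Set.Ici_infinite N).exists_ne_map_eq_of_mapsTo h1 hF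
  rcases lt_or_gt_of_ne hab with h | h
  · exact ⟨a, b, ha, h, h2⟩
  · exact ⟨b, a, hb, h, h2.symm⟩

lemma eq_one_of_comm (g : M ≃ₗ[R] M) (hg : g ∈ Gam)
    (h : ∀ i j : Fin 3, ∀ hij : i ≠ j, ∃ r : R, r ≠ 0 ∧
      ∀ m, g (el i j hij r m) = el i j hij r (g m)) : g = 1 := by
  obtain ⟨l, hl⟩ := scalar_of_comm g h
  exact scalar_eq_one g hg l hl

/-- `Γ` is ICC. -/
lemma gam_icc (g : Gam) (h : (Set.range fun k : Gam => k * g * k⁻¹).Finite) : g = 1 := by
  apply Subtype.ext
  apply eq_one_of_comm _ g.2
  intro i j hij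
  let k : ℕ → Gam := fun n => ⟨el i j hij (X * X ^ n), elX_mem hij _⟩
  obtain ⟨a, b, -, hab, h1⟩ := exists_pow_ne (fun n => k n * g * (k n)⁻¹)
    (h.subset (by rintro _ ⟨n, rfl⟩; exact ⟨k n, rfl⟩)) 0
  refine ⟨X * X ^ b - X * X ^ a, ?_, ?_⟩
  · rw [sub_ne_zero, ← pow_succ', ← pow_succ']
    intro h2
    have := congrArg Polynomial.natDegree h2
    rw [natDegree_X_pow, natDegree_X_pow] at this
    omega
  · have h2 : k a * g * (k a)⁻¹ = k b * g * (k b)⁻¹ := h1
    have h3 : g * ((k a)⁻¹ * k b) = ((k a)⁻¹ * k b) * g := by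
      calc g * ((k a)⁻¹ * k b) = (k a)⁻¹ * (k a * g * (k a)⁻¹) * k b := by group
        _ = (k a)⁻¹ * (k b * g * (k b)⁻¹) * k b := by rw [h2]
        _ = ((k a)⁻¹ * k b) * g := by group
    have h4 : ((k a)⁻¹ * k b).1 = el i j hij (X * X ^ b - X * X ^ a) := by
      change (el i j hij (X * X ^ a))⁻¹ * el i j hij (X * X ^ b) = _
      rw [el_inv, ← el_add, neg_add_eq_sub]
    intro m
    have h5 := congrArg (fun u : Gam => u.1 m) h3
    change g.1 (((k a)⁻¹ * k b).1 m) = ((k a)⁻¹ * k b).1 (g.1 m) at h5
    rwa [h4] at h5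

/-! ## Elements commuting with all their conjugates -/

/-- The matrix unit `m ↦ m_j e_i`. -/
def ee (i j : Fin 3) : M →ₗ[R] M := LinearMap.single R _ i ∘ₗ LinearMap.proj j

lemma ee_apply (i j : Fin 3) (m : M) : ee i j m = Pi.single i (m j) := rfl

lemma ee_sq {i j : Fin 3} (h : i ≠ j) : ee i j * ee i j = 0 := by
  apply LinearMap.ext
  intro m
  change ee i j (ee i j m) = 0
  rw [ee_apply, ee_apply, Pi.single_eq_of_ne h.symm, Pi.single_zero]

/-- An element of `Γ` commuting with all its conjugates is trivial. -/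
lemma eq_one_of_conj (g : M ≃ₗ[R] M) (hg : g ∈ Gam)
    (h : ∀ k ∈ Gam, g * (k * g * k⁻¹) = k * g * k⁻¹ * g) : g = 1 := by
  set u : Module.End R M := g.toLinearMap with hu
  have key : ∀ i j : Fin 3, ∀ _ : i ≠ j,
      u * (ee i j * u * ee i j) = ee i j * u * ee i j * u ∧
      u * (ee i j * u - u * ee i j) = (ee i j * u - u * ee i j) * u := by
    intro i j hij
    set e := ee i j with he
    have he2 : e * e = 0 := ee_sq hij
    have h1 : ∀ r : R, (X * r) • (u * (e * u - u * e) - (e * u - u * e) * u) =
        (X * r * (X * r)) • (u * (e * u * e) - e * u * e * u) := by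
      intro r
      have h2 := h _ (elX_mem hij r)
      have h3 : (el i j hij (X * r)).toLinearMap = 1 + (X * r) • e := by
        apply LinearMap.ext
        intro m
        change el i j hij (X * r) m = m + (X * r) • ee i j m
        rw [el_apply, ee_apply, ← Pi.single_smul]; rfl
      have h4 : ((el i j hij (X * r))⁻¹).toLinearMap = 1 - (X * r) • e := by
        rw [el_inv]
        apply LinearMap.ext
        intro m
        change el i j hij (-(X * r)) m = m - (X * r) • ee i j m
        rw [el_apply, ee_apply, ← Pi.single_smul, smul_eq_mul, neg_mul, Pi.single_neg]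
        abel
      have h5 : u * ((1 + (X * r) • e) * u * (1 - (X * r) • e)) =
          (1 + (X * r) • e) * u * (1 - (X * r) • e) * u := by
        rw [← h3, ← h4]
        exact congrArg LinearEquiv.toLinearMap h2
      generalize X * r = ρ at h5
      have h6 : u * ((1 + ρ • e) * u * (1 - ρ • e)) - (1 + ρ • e) * u * (1 - ρ • e) * u =
          ρ • (u * (e * u - u * e) - (e * u - u * e) * u) -
          (ρ * ρ) • (u * (e * u * e) - e * u * e * u) := by
        simp only [mul_add, add_mul, mul_sub, sub_mul, smul_mul_assoc, mul_smul_comm, mul_one,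
          one_mul, smul_smul, mul_assoc, smul_sub, smul_add]
        module
      rw [h5, sub_self] at h6
      exact (sub_eq_zero.1 h6.symm)
    have hP := h1 1
    have hQ := h1 X
    rw [mul_one] at hP
    set P := u * (e * u - u * e) - (e * u - u * e) * u with hPd
    set Q := u * (e * u * e) - e * u * e * u with hQd
    have hX : (X : R) ≠ 0 := X_ne_zero
    have hP' : P = (X : R) • Q := by
      rw [mul_smul] at hP
      exact smul_right_injective _ hX hP
    have hQ0 : Q = 0 := by
      rw [hP', smul_smul] at hQ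
      have h7 : ((X : R) * X * X - X * X * (X * X)) • Q = 0 :=
        (sub_smul _ _ Q).trans (sub_eq_zero.2 hQ)
      rcases smul_eq_zero.1 h7 with h8 | h8
      · exfalso
        have h9 : (X : R) ^ 3 = X ^ 4 := by linear_combination h8
        have := congrArg Polynomial.natDegree h9
        rw [natDegree_X_pow, natDegree_X_pow] at this
        omega
      · exact h8
    rw [hQ0, smul_zero] at hP'
    exact ⟨sub_eq_zero.1 hQ0, sub_eq_zero.1 hP'⟩
  have hs : ∀ (i : Fin 3) (r : R), (Pi.single i r : M) = r • Pi.single i 1 := by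
    intro i r
    rw [← Pi.single_smul, smul_eq_mul, mul_one]
  have ha : ∀ i j : Fin 3, i ≠ j → g (Pi.single i 1) j = 0 := by
    intro i j hij
    have h1 := congrArg (fun v : Module.End R M => v (Pi.single j 1) j) (key i j hij).1
    change g (ee i j (g (ee i j (Pi.single j 1)))) j =
      ee i j (g (ee i j (g (Pi.single j 1)))) j at h1
    rw [ee_apply i j (g _), ee_apply i j (Pi.single j 1), ee_apply i j (g _),
      Pi.single_eq_of_ne hij.symm, Pi.single_eq_same, hs i (g (Pi.single i 1) j), map_smul,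
      Pi.smul_apply, smul_eq_mul] at h1
    exact mul_self_eq_zero.1 h1
  have hd : ∀ i : Fin 3, g (Pi.single i 1) = (g (Pi.single i 1) i) • Pi.single i 1 := by
    intro i
    funext k
    by_cases hk : k = i
    · subst hk; simp
    · rw [ha i k (Ne.symm hk)]; simp [hk]
  have hl : ∀ i j : Fin 3, i ≠ j → g (Pi.single i 1) i = g (Pi.single j 1) j := by
    intro i j hij
    have h1 := congrArg (fun v : Module.End R M => v (Pi.single j 1)) (key i j hij).2
    change g (ee i j (g (Pi.single j 1)) - g (ee i j (Pi.single j 1))) =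
      ee i j (g (g (Pi.single j 1))) - g (ee i j (g (Pi.single j 1))) at h1
    have h2 : g (g (Pi.single j 1)) j = g (Pi.single j 1) j * g (Pi.single j 1) j := by
      conv_lhs => rw [hd j]
      rw [map_smul]; rfl
    rw [ee_apply i j (g _), ee_apply i j (Pi.single j 1), ee_apply i j (g (g _)), h2,
      Pi.single_eq_same, map_sub, hs i (g (Pi.single j 1) j), map_smul, hs i (_ * _)] at h1
    have h3 := congrFun h1 i
    have h4 : g (g (Pi.single i 1)) i = g (Pi.single i 1) i * g (Pi.single i 1) i := by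
      conv_lhs => rw [hd i]
      rw [map_smul]; rfl
    simp only [Pi.sub_apply, Pi.smul_apply, smul_eq_mul, Pi.single_eq_same, mul_one, h4] at h3
    have h5 : (g (Pi.single i 1) i - g (Pi.single j 1) j) *
        (g (Pi.single i 1) i - g (Pi.single j 1) j) = 0 := by linear_combination -h3
    exact sub_eq_zero.1 (mul_self_eq_zero.1 h5)
  refine scalar_eq_one g hg (g (Pi.single 0 1) 0) (scalar_of_basis g _ fun i => ?_)
  conv_lhs => rw [hd i]
  by_cases hi : i = 0
  · subst hi; rfl
  · rw [hl i 0 hi]

end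

end Vale.Agent.P092.Gen
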