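import Vale.Agent.P092.Gen.ICC

/-!
# Infinite orbits on `A s`
-/

open Polynomial

namespace Vale.Agent.P092.Gen

noncomputable section

/-- Sum of two points. -/
def Pt.pls (x y : Pt) : Pt where
  f := fun m => x.f m + y.f m
  q := fun m => x.q m + y.q m
  hf a b := by rw [x.hf, y.hf]; ring
  hq a b c := by rw [x.hq, y.hq]; ring

/-- The vectors with coordinates of degree `< N`, vanishing on `J`. -/
def low (N : ℕ) (J : Finset (Fin 3)) : Set M :=
  {m | (∀ i, (m i).degree < N) ∧ ∀ j ∈ J, m j = 0}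

/-- Two points agree on `low N J`. -/
def agr (N : ℕ) (J : Finset (Fin 3)) (x y : Pt) : Prop :=
  ∀ m ∈ low N J, x.f m = y.f m ∧ x.q m = y.q m

lemma divAdd {T : R} (hT : T.Monic) (p p' : R) : (p + p') /ₘ T = p /ₘ T + p' /ₘ T := by
  have h1 := modByMonic_add_div p T
  have h2 := modByMonic_add_div p' T
  have h3 := modByMonic_add_div (p + p') T
  rw [add_modByMonic] at h3
  have h4 : T * ((p + p') /ₘ T) = T * (p /ₘ T + p' /ₘ T) := by
    linear_combination h3 - h1 - h2
  exact mul_left_cancel₀ hT.ne_zero h4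

/-- truncation -/
def tau (N : ℕ) (m : M) : M := fun k => m k %ₘ X ^ N

lemma tau_add (N : ℕ) (m n : M) : tau N (m + n) = tau N m + tau N n := by
  funext k; exact add_modByMonic _ _

/-- truncation with the `j`-th coordinate deleted -/
def p0 (N : ℕ) (j : Fin 3) (m : M) : M := fun k => if k = j then 0 else m k %ₘ X ^ N

lemma p0_add (N : ℕ) (j : Fin 3) (m n : M) : p0 N j (m + n) = p0 N j m + p0 N j n := by
  funext k
  by_cases hk : k = j
  · simp [p0, hk]
  · simp only [p0, hk, if_false, Pi.add_apply, add_modByMonic]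

/-- `m ↦ (m_i / T) e_j` -/
def kap (T : R) (i j : Fin 3) (m : M) : M := Pi.single j (m i /ₘ T)

lemma kap_add {T : R} (hT : T.Monic) (i j : Fin 3) (m n : M) :
    kap T i j (m + n) = kap T i j m + kap T i j n := by
  unfold kap
  rw [Pi.add_apply, divAdd hT, Pi.single_add]

lemma step (a : Pt → ZMod 4) (N : ℕ) (J : Finset (Fin 3)) (i j : Fin 3) (hij : i ≠ j)
    (hj : j ∉ J) (T : R) (hT : T.Monic) (hd : X ^ N ∣ T)
    (hdep : ∀ x y, agr N J x y → a x = a y)
    (hinv : ∀ x : Pt, a (x.comp (el i j hij T) (map_add _)) = a x) :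
    ∀ x y, agr N (insert j J) x y → a x = a y := by
  intro x y hxy
  have hTd : (N : WithBot ℕ) ≤ T.degree := by
    have := degree_le_of_dvd hd hT.ne_zero
    rwa [degree_X_pow] at this
  have hA : ∀ m ∈ low N J, tau N m = m := by
    intro m hm
    funext k
    exact (modByMonic_eq_self_iff (monic_X_pow N)).2 (by rw [degree_X_pow]; exact hm.1 k)
  have hdiv : ∀ m ∈ low N J, ∀ k, m k /ₘ T = 0 := by
    intro m hm k
    exact (divByMonic_eq_zero_iff hT).2 ((hm.1 k).trans_le hTd)
  have hp0 : ∀ m ∈ low N J, p0 N j m ∈ low N (insert j J) := by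
    intro m hm
    refine ⟨fun k => ?_, fun k hk => ?_⟩
    · by_cases hk : k = j
      · simp only [p0, hk, if_true, degree_zero]
        exact WithBot.bot_lt_coe N
      · simp only [p0, hk, if_false]
        rw [show m k %ₘ X ^ N = m k from congrFun (hA m hm) k]
        exact hm.1 k
    · by_cases hk' : k = j
      · simp [p0, hk']
      · simp only [p0, hk', if_false]
        rw [show m k %ₘ X ^ N = m k from congrFun (hA m hm) k]
        exact hm.2 k ((Finset.mem_insert.1 hk).resolve_left hk')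
  -- behaviour on the images
  set g := el i j hij T with hg
  have hgi : ∀ m : M, g m = m + Pi.single i (T * m j) := fun m => rfl
  have htg : ∀ m ∈ low N J, tau N (g m) = m := by
    intro m hm
    rw [hgi, tau_add, hA m hm]
    have : tau N (Pi.single i (T * m j)) = 0 := by
      funext k
      by_cases hk : k = i
      · subst hk
        simp only [tau, Pi.single_eq_same, Pi.zero_apply]
        rw [modByMonic_eq_zero_iff_dvd (monic_X_pow N)]
        exact Dvd.dvd.mul_right hd _
      · simp [tau, hk]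
    rw [this, add_zero]
  have hkg : ∀ m ∈ low N J, kap T i j (g m) = Pi.single j (m j) := by
    intro m hm
    unfold kap
    rw [hgi, Pi.add_apply, Pi.single_eq_same, divAdd hT, hdiv m hm, zero_add,
      mul_divByMonic_cancel_left _ hT]
  have hp0t : ∀ m : M, p0 N j m = tau N m - Pi.single j (tau N m j) := by
    intro m
    funext k
    by_cases hk : k = j
    · subst hk; simp [p0]
    · simp [p0, hk, tau]
  let z : Pt := ((x.comp (fun m => tau N m - kap T i j m) (by
    intro m n; rw [tau_add, kap_add hT]; abel)).pls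
    (y.comp (fun m => p0 N j m + kap T i j m) (by
      intro m n; rw [p0_add, kap_add hT]; abel))).pls
    (x.comp (p0 N j) (p0_add N j))
  have hz : ∀ u v : ZMod 2, u + v + v = u := by decide
  have hz' : ∀ u v : ZMod 2, u + v + u = v := by decide
  have h1 : agr N J x z := by
    intro m hm
    have e1 : tau N m - kap T i j m = m := by
      rw [hA m hm]; simp [kap, hdiv m hm]
    have e2 : p0 N j m + kap T i j m = p0 N j m := by
      simp [kap, hdiv m hm]
    have h2 := hxy _ (hp0 m hm)
    constructor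
    · change x.f m = x.f (tau N m - kap T i j m) + y.f (p0 N j m + kap T i j m) + x.f (p0 N j m)
      rw [e1, e2, ← h2.1, hz]
    · change x.q m = x.q (tau N m - kap T i j m) + y.q (p0 N j m + kap T i j m) + x.q (p0 N j m)
      rw [e1, e2, ← h2.2, hz]
  have h2 : agr N J (z.comp g (map_add _)) y := by
    intro m hm
    have e1 : tau N (g m) - kap T i j (g m) = p0 N j (g m) := by
      rw [hp0t, hkg m hm, htg m hm]
    have e2 : p0 N j (g m) + kap T i j (g m) = m := by
      rw [← e1]; rw [htg m hm]; abel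
    constructor
    · change x.f (tau N (g m) - kap T i j (g m)) + y.f (p0 N j (g m) + kap T i j (g m)) +
        x.f (p0 N j (g m)) = y.f m
      rw [e1, e2, hz']
    · change x.q (tau N (g m) - kap T i j (g m)) + y.q (p0 N j (g m) + kap T i j (g m)) +
        x.q (p0 N j (g m)) = y.q m
      rw [e1, e2, hz']
  rw [hdep x z h1, ← hinv z, hdep _ y h2]

/-- Every element of `A s` depends only on the values on a finite set of vectors. -/
lemma exists_dep (s : Bool) (a : Pt → ZMod 4) (ha : a ∈ A s) :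
    ∃ N, ∀ x y, agr N ∅ x y → a x = a y := by
  have hm : ∀ m : M, ∃ N : ℕ, m ∈ low N ∅ := by
    intro m
    refine ⟨(Finset.univ.sup fun i => (m i).natDegree) + 1, fun i => ?_, by simp⟩
    refine degree_le_natDegree.trans_lt ?_
    have h1 : (m i).natDegree ≤ Finset.univ.sup fun i => (m i).natDegree :=
      Finset.le_sup (f := fun i => (m i).natDegree) (Finset.mem_univ i)
    exact_mod_cast Nat.lt_succ_of_le h1
  have hmono : ∀ {N N' : ℕ}, N ≤ N' → low N ∅ ⊆ low N' ∅ := by
    intro N N' hN m hm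
    exact ⟨fun i => (hm.1 i).trans_le (by exact_mod_cast hN), hm.2⟩
  unfold A at ha
  induction ha using AddSubgroup.closure_induction with
  | mem a ha =>
    rcases ha with ⟨m, rfl⟩ | ⟨m, rfl⟩
    · obtain ⟨N, hN⟩ := hm m
      refine ⟨N, fun x y h => ?_⟩
      simp only [th, (h m hN).1, (h m hN).2]
    · obtain ⟨N, hN⟩ := hm m
      refine ⟨N, fun x y h => ?_⟩
      simp only [chi, (h m hN).1]
  | zero => exact ⟨0, fun _ _ _ => rfl⟩
  | add a b _ _ h1 h2 =>
    obtain ⟨N, hN⟩ := h1
    obtain ⟨N', hN'⟩ := h2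
    refine ⟨max N N', fun x y h => ?_⟩
    rw [Pi.add_apply, Pi.add_apply, hN x y fun m hm => h m (hmono (le_max_left _ _) hm),
      hN' x y fun m hm => h m (hmono (le_max_right _ _) hm)]
  | neg a _ h1 =>
    obtain ⟨N, hN⟩ := h1
    exact ⟨N, fun x y h => by rw [Pi.neg_apply, Pi.neg_apply, hN x y h]⟩

/-- The zero point. -/
def Pt.zro : Pt := ⟨fun _ => 0, fun _ => 0, fun _ _ => by simp, fun _ _ _ => by simp⟩

lemma A_zro (s : Bool) (a : Pt → ZMod 4) (ha : a ∈ A s) : a Pt.zro = 0 := by
  unfold A at ha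
  induction ha using AddSubgroup.closure_induction with
  | mem a ha =>
    rcases ha with ⟨m, rfl⟩ | ⟨m, rfl⟩
    · cases s <;> simp [th, Pt.zro, lift_zero]
    · simp [chi, Pt.zro, lift_zero]
  | zero => rfl
  | add a b _ _ h1 h2 => rw [Pi.add_apply, h1, h2, add_zero]
  | neg a _ h1 => rw [Pi.neg_apply, h1, neg_zero]

/-- An element of `A s` with a finite `Γ`-orbit vanishes. -/
theorem orbit_infinite (s : Bool) (a : A s)
    (h : (Set.range fun g : Gam => sm s g.1 a).Finite) : a = 0 := by
  obtain ⟨N, hN⟩ := exists_dep s a.1 a.2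
  -- transvections fixing `a`
  have key : ∀ i j : Fin 3, ∀ hij : i ≠ j, ∃ T : R, T.Monic ∧ X ^ N ∣ T ∧
      ∀ x : Pt, a.1 (x.comp (el i j hij T) (map_add _)) = a.1 x := by
    intro i j hij
    let k : ℕ → Gam := fun n => ⟨el i j hij (X * X ^ n), elX_mem hij _⟩
    obtain ⟨b, c, hb, hbc, h1⟩ := exists_pow_ne (fun n => sm s (k n).1 a)
      (h.subset (by rintro _ ⟨n, rfl⟩; exact ⟨k n, rfl⟩)) N
    have h1' : sm s (el i j hij (X * X ^ b)) a = sm s (el i j hij (X * X ^ c)) a := h1
    have h2 : sm s (el i j hij (X * X ^ c - X * X ^ b)) a = a := by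
      rw [sub_eq_neg_add, el_add, sm_mul, ← h1', ← sm_mul, ← el_add, neg_add_cancel, el_zero,
        sm_one]
    refine ⟨X * X ^ c - X * X ^ b, ?_, ?_, fun x => ?_⟩
    · rw [← pow_succ', ← pow_succ']
      refine (monic_X_pow (c + 1)).sub_of_left ?_
      rw [degree_X_pow, degree_X_pow]
      exact_mod_cast Nat.succ_lt_succ hbc
    · refine dvd_sub (Dvd.dvd.mul_left (pow_dvd_pow X (hb.trans hbc.le)) X)
        (Dvd.dvd.mul_left (pow_dvd_pow X hb) X)
    · exact congrFun (congrArg Subtype.val h2) x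
  obtain ⟨T0, hT0, hd0, hi0⟩ := key 1 0 (by decide)
  obtain ⟨T1, hT1, hd1, hi1⟩ := key 0 1 (by decide)
  obtain ⟨T2, hT2, hd2, hi2⟩ := key 0 2 (by decide)
  have s0 := step a.1 N ∅ 1 0 (by decide) (by simp) T0 hT0 hd0 hN hi0
  have s1 := step a.1 N _ 0 1 (by decide) (by decide) T1 hT1 hd1 s0 hi1
  have s2 := step a.1 N _ 0 2 (by decide) (by decide) T2 hT2 hd2 s1 hi2
  apply Subtype.ext
  funext x
  rw [s2 x Pt.zro ?_, A_zro s a.1 a.2]
  · rfl
  · intro m hm
    have hm0 : m = 0 := by
      funext k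
      refine hm.2 k ?_
      fin_cases k <;> simp
    subst hm0
    exact ⟨x.f_zero.trans (Pt.f_zero _).symm, x.q_zero.trans (Pt.q_zero _).symm⟩

/-- **The groups `G₀` and `G₁` are ICC.** -/
theorem icc (s : Bool) : IsICC (GG s) := by
  intro g hg hfin
  have hg2 : g.right = 1 := by
    apply gam_icc
    refine (hfin.image fun u : GG s => u.right).subset ?_
    rintro _ ⟨k, rfl⟩
    exact ⟨_, ⟨SemidirectProduct.inr k, rfl⟩, by simp⟩
  have hg1 : Multiplicative.toAdd g.left = 0 := by
    apply orbit_infinite s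
    refine (hfin.image fun u : GG s => Multiplicative.toAdd u.left).subset ?_
    rintro _ ⟨k, rfl⟩
    refine ⟨_, ⟨SemidirectProduct.inr k, rfl⟩, ?_⟩
    have h1 : g = SemidirectProduct.inl g.left := SemidirectProduct.ext rfl hg2
    rw [h1]
    simp only [← map_inv, ← SemidirectProduct.inl_aut]
    rfl
  apply hg
  exact SemidirectProduct.ext (Multiplicative.toAdd.injective hg1) hg2

end

end Vale.Agent.P092.Gen
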