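import Vale.Agent.P092.Gen.ICCa

/-!
# The groups are countable and not isomorphic
-/

open Polynomial

namespace Vale.Agent.P092.Gen

noncomputable section

lemma A_false_two (a : Pt → ZMod 4) (ha : a ∈ A false) : a + a = 0 := by
  unfold A at ha
  induction ha using AddSubgroup.closure_induction with
  | mem a ha =>
    rcases ha with ⟨m, rfl⟩ | ⟨m, rfl⟩
    · funext x
      simp only [th, Pi.add_apply, Pi.zero_apply, Bool.false_eq_true, if_false, zero_add]
      generalize x.q m = b
      revert b; decide
    · funext x
      simp only [chi, Pi.add_apply, Pi.zero_apply]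
      generalize x.f m = b
      revert b; decide
  | zero => rw [add_zero]
  | add a b _ _ h1 h2 => rw [add_add_add_comm, h1, h2, add_zero]
  | neg a _ h1 => rw [← neg_add, h1, neg_zero]

lemma th_true_two (m : M) : thA true m + thA true m = chiA true m := by
  apply Subtype.ext
  funext x
  change th true m x + th true m x = chi m x
  simp only [th, chi]
  generalize x.q m = b
  generalize x.f m = c
  revert b c; decide

/-- In a group `G`, every element commuting with all its conjugates is an involution. -/
def Prop2 (G : Type*) [Group G] : Prop :=
  ∀ g : G, (∀ k : G, g * (k * g * k⁻¹) = k * g * k⁻¹ * g) → g * g = 1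

lemma Prop2.of_equiv {G G' : Type*} [Group G] [Group G'] (e : G ≃* G') (h : Prop2 G) :
    Prop2 G' := by
  intro g hg
  have h1 := h (e.symm g) fun k => by
    have := congrArg e.symm (hg (e k))
    simpa using this
  have := congrArg e h1
  simpa using this

lemma prop2_false : Prop2 (GG false) := by
  intro g hg
  have hr : g.right = 1 := by
    apply Subtype.ext
    apply eq_one_of_conj _ g.right.2
    intro k hk
    have h1 := congrArg (fun u : GG false => u.right.1) (hg (SemidirectProduct.inr ⟨k, hk⟩))
    simpa using h1
  have h1 : g = SemidirectProduct.inl g.left := SemidirectProduct.ext rfl hr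
  rw [h1, ← map_mul]
  have h2 : g.left * g.left = 1 := by
    have := A_false_two _ (Multiplicative.toAdd g.left).2
    apply Multiplicative.toAdd.injective
    exact Subtype.ext this
  rw [h2, map_one]

lemma not_prop2_true : ¬ Prop2 (GG true) := by
  intro h
  let m : M := Pi.single 0 1
  have hm : m ≠ 0 := by
    intro h0
    have := congrFun h0 0
    simp [m] at this
  let g : GG true := SemidirectProduct.inl (Multiplicative.ofAdd (thA true m))
  have h1 := h g fun k => by
    have h2 : k * g * k⁻¹ = SemidirectProduct.inl ((k * g * k⁻¹).left) := by
      apply SemidirectProduct.ext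
      · rfl
      · simp [g]
    rw [h2, ← map_mul, ← map_mul, mul_comm]
  have h3 : g * g = SemidirectProduct.inl (Multiplicative.ofAdd (chiA true m)) := by
    rw [← th_true_two, ofAdd_add, map_mul]
  rw [h3] at h1
  have h4 : Multiplicative.ofAdd (chiA true m) = 1 := by
    apply SemidirectProduct.inl_injective (φ := phi true)
    rw [h1, map_one]
  exact hm (chiA_inj true m (Multiplicative.ofAdd.injective h4))

/-- **`G₀` and `G₁` are not isomorphic.** -/
theorem not_iso : IsEmpty (GG false ≃* GG true) :=
  ⟨fun e => not_prop2_true (prop2_false.of_equiv e)⟩

instance : Countable R := by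
  have h : Function.Injective fun p : R => (List.range (p.natDegree + 1)).map p.coeff := by
    intro p q hpq
    simp only at hpq
    have h1 := congrArg List.length hpq
    simp only [List.length_map, List.length_range] at h1
    have h2 : p.natDegree = q.natDegree := by omega
    ext n
    rw [← h2] at hpq
    rw [List.map_inj_left] at hpq
    by_cases hn : n < p.natDegree + 1
    · exact hpq n (List.mem_range.2 hn)
    · rw [coeff_eq_zero_of_natDegree_lt (by omega), coeff_eq_zero_of_natDegree_lt (by omega)]
  exact h.countable

instance : Countable Gam := by
  have h : Function.Injective fun (g : Gam) (i : Fin 3) => g.1 (Pi.single i 1 : M) := by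
    intro g g' hgg
    apply Subtype.ext
    apply LinearEquiv.toLinearMap_injective
    refine LinearMap.pi_ext' fun i => ?_
    apply LinearMap.ext_ring
    exact congrFun hgg i
  exact h.countable

instance (s : Bool) : Countable (A s) := by
  let S : Set (Pt → ZMod 4) := Set.range (th s) ∪ Set.range chi
  have hS : S.Countable := (Set.countable_range _).union (Set.countable_range _)
  have : Countable S := hS.to_subtype
  have h1 : A s ≤ (Finsupp.linearCombination ℤ (fun x : S => x.1)).range.toAddSubgroup := by
    unfold A
    rw [AddSubgroup.closure_le]
    intro x hx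
    exact ⟨Finsupp.single ⟨x, hx⟩ 1, by simp⟩
  have h2 : ∀ a : A s, ∃ c : S →₀ ℤ, Finsupp.linearCombination ℤ (fun x : S => x.1) c = a.1 :=
    fun a => h1 a.2
  choose c hc using h2
  have h3 : Function.Injective c := by
    intro a b hab
    apply Subtype.ext
    rw [← hc a, ← hc b, hab]
  exact h3.countable

instance (s : Bool) : Countable (GG s) := by
  have h : Function.Injective fun g : GG s => (Multiplicative.toAdd g.left, g.right) := by
    intro g g' h
    exact SemidirectProduct.ext (Multiplicative.toAdd.injective (congrArg Prod.fst h))
      (congrArg Prod.snd h)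
  exact h.countable

end

end Vale.Agent.P092.Gen
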