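import Vale.Agent.P092.Gen.Basic

open Polynomial SemidirectProduct

namespace Vale.Agent.P092.Gen

noncomputable section

/-- Conjugation in `GG s`. -/
lemma inr_conj (s : Bool) (g : Gam) (a : A s) :
    (inr g : GG s) * inl (Multiplicative.ofAdd a) * (inr g)⁻¹ =
      inl (Multiplicative.ofAdd (sm s g.1 a)) := by
  rw [← phi_apply, SemidirectProduct.inl_aut]
  rw [map_inv]

lemma conj_inl (s : Bool) (n : GG s) (a : A s) :
    n * inl (Multiplicative.ofAdd a) * n⁻¹ =
      inl (Multiplicative.ofAdd (sm s n.right.1 a)) := by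
  have hn : n = inl n.left * inr n.right := (inl_left_mul_inr_right n).symm
  have h1 := inr_conj s n.right a
  calc n * inl (Multiplicative.ofAdd a) * n⁻¹
      = inl n.left * ((inr n.right : GG s) * inl (Multiplicative.ofAdd a) * (inr n.right)⁻¹) *
        (inl n.left)⁻¹ := by
        conv_lhs => rw [hn]
        group
    _ = inl n.left * inl (Multiplicative.ofAdd (sm s n.right.1 a)) * (inl n.left)⁻¹ := by
        rw [h1]
    _ = inl (Multiplicative.ofAdd (sm s n.right.1 a)) := by
        rw [← map_mul, ← map_inv, ← map_mul, mul_comm n.left, mul_inv_cancel_right]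

/-- Pigeonhole: a finite index subgroup meets the image of an infinite family. -/
lemma pigeon {G T : Type*} [Group G] [Infinite T] (S : Subgroup G) [S.FiniteIndex] (φ : T → G) :
    ∃ a b : T, a ≠ b ∧ (φ a)⁻¹ * φ b ∈ S := by
  obtain ⟨a, b, hab, h⟩ := Finite.exists_ne_map_eq_of_infinite fun t => (φ t : G ⧸ S)
  exact ⟨a, b, hab, QuotientGroup.eq.mp h⟩

lemma el_mem_Gam (i j : Fin 3) (h : i ≠ j) (r : R) : el i j h (X * r) ∈ Gam := by
  fin_cases i <;> fin_cases j
  · exact absurd rfl h
  · exact el01_mem _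
  · exact el02_mem _
  · exact el10_mem _
  · exact absurd rfl h
  · exact el12_mem _
  · exact el20_mem _
  · exact el21_mem _
  · exact absurd rfl h

/-- A finite index subgroup contains nontrivial elementary transvections. -/
lemma exists_el (s : Bool) (S : Subgroup (GG s)) [S.FiniteIndex] (i j : Fin 3) (h : i ≠ j) :
    ∃ (r : R) (_ : r ≠ 0) (hr : el i j h r ∈ Gam), (inr ⟨el i j h r, hr⟩ : GG s) ∈ S := by
  obtain ⟨a, b, hab, hS⟩ := pigeon S
    fun r : R => (inr (⟨el i j h (X * r), el_mem_Gam i j h r⟩ : Gam) : GG s)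
  refine ⟨X * (b - a), mul_ne_zero X_ne_zero (sub_ne_zero.mpr hab.symm), el_mem_Gam i j h _, ?_⟩
  have h1 : (⟨el i j h (X * (b - a)), el_mem_Gam i j h _⟩ : Gam) =
      (⟨el i j h (X * a), el_mem_Gam i j h a⟩ : Gam)⁻¹ *
        ⟨el i j h (X * b), el_mem_Gam i j h b⟩ := by
    apply Subtype.ext
    change el i j h (X * (b - a)) = (el i j h (X * a))⁻¹ * el i j h (X * b)
    rw [el_inv, ← el_add]; congr 1; ring
  rw [h1, map_mul, map_inv]
  exact hS

lemma ext_single (g : M ≃ₗ[R] M) (h : ∀ i, g (Pi.single i 1) = Pi.single i 1) : g = 1 := by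
  apply LinearEquiv.toLinearMap_injective
  apply LinearMap.pi_ext'
  intro i
  ext1
  exact h i

lemma single_smul_one (i : Fin 3) (r : R) : (Pi.single i r : M) = r • Pi.single i 1 := by
  rw [← Pi.single_smul, smul_eq_mul, mul_one]

/-- An abelian subgroup normalised by a finite index subgroup which contains it lies in `A s`. -/
lemma right_eq_one (s : Bool) (S N : Subgroup (GG s)) [S.FiniteIndex]
    (hcomm : ∀ x ∈ N, ∀ y ∈ N, x * y = y * x) (hnorm : ∀ g ∈ S, ∀ x ∈ N, g * x * g⁻¹ ∈ N)
    (n : GG s) (hn : n ∈ N) : n.right = 1 := by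
  by_contra hne
  set g : M ≃ₗ[R] M := n.right.1 with hg
  have hg1 : g ≠ 1 := fun h => hne (Subtype.ext h)
  obtain ⟨m₀, hm₀⟩ : ∃ m₀, g m₀ ≠ m₀ := by
    by_contra hc; push Not at hc
    exact hg1 (LinearEquiv.ext hc)
  -- an element of `χ(M) ∩ S` moved by `g`
  obtain ⟨m, hm, hmS⟩ : ∃ m, g m ≠ m ∧
      (inl (Multiplicative.ofAdd (chiA s m)) : GG s) ∈ S := by
    obtain ⟨a, b, hab, hS⟩ := pigeon S
      fun r : R => (inl (Multiplicative.ofAdd (chiA s (r • m₀))) : GG s)
    refine ⟨(b - a) • m₀, ?_, ?_⟩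
    · rw [map_smul]
      intro h
      exact hm₀ (smul_right_injective M (sub_ne_zero.mpr hab.symm) h)
    · rw [← map_inv, ← map_mul, ← ofAdd_neg, ← ofAdd_add, neg_add_eq_sub, ← map_sub,
        ← sub_smul] at hS
      exact hS
  set v : M := m - g m with hv
  have hv0 : v ≠ 0 := sub_ne_zero.mpr hm.symm
  have hvN : (inl (Multiplicative.ofAdd (chiA s v)) : GG s) ∈ N := by
    have h1 := N.mul_mem (hnorm _ hmS n hn) (N.inv_mem hn)
    have h2 : (inl (Multiplicative.ofAdd (chiA s m)) : GG s) * n *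
        (inl (Multiplicative.ofAdd (chiA s m)) : GG s)⁻¹ * n⁻¹ =
        inl (Multiplicative.ofAdd (chiA s v)) := by
      have h3 := conj_inl s n (-(chiA s m))
      rw [ofAdd_neg, map_inv] at h3
      calc (inl (Multiplicative.ofAdd (chiA s m)) : GG s) * n *
        (inl (Multiplicative.ofAdd (chiA s m)) : GG s)⁻¹ * n⁻¹
          = (inl (Multiplicative.ofAdd (chiA s m)) : GG s) * (n *
        (inl (Multiplicative.ofAdd (chiA s m)) : GG s)⁻¹ * n⁻¹) := by group
        _ = _ := by
          rw [h3, ← map_mul, ← ofAdd_add]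
          congr 2
          rw [hv, map_sub, sub_eq_add_neg]
          congr 1
    rw [h2] at h1
    exact h1
  -- the conjugates of `χ_v` are fixed by `g`
  have hfix : ∀ (k : Gam), (inr k : GG s) ∈ S → g (k.1 v) = k.1 v := by
    intro k hk
    have h1 := hnorm _ hk _ hvN
    rw [inr_conj, sm_chiA] at h1
    have h2 := hcomm _ hn _ h1
    have h3 := conj_inl s n (chiA s (k.1 v))
    rw [h2, mul_inv_cancel_right, sm_chiA] at h3
    have h4 : chiA s (k.1 v) = chiA s (g (k.1 v)) :=
      Multiplicative.ofAdd.injective (inl_injective h3)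
    have h5 : chiA s (g (k.1 v) - k.1 v) = 0 := by rw [map_sub, h4, sub_self]
    exact sub_eq_zero.mp (chiA_inj s _ h5)
  have hfv : g v = v := by
    have := hfix 1 (by rw [map_one]; exact S.one_mem)
    exact this
  have hfe : ∀ i j : Fin 3, i ≠ j → v j ≠ 0 → g (Pi.single i 1) = Pi.single i 1 := by
    intro i j hij hvj
    obtain ⟨r, hr0, hr, hrS⟩ := exists_el s S i j hij
    have h1 := hfix _ hrS
    change g (el i j hij r v) = el i j hij r v at h1
    rw [el_apply, map_add, hfv] at h1
    have h2 := add_left_cancel h1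
    rw [single_smul_one, map_smul] at h2
    exact smul_right_injective M (mul_ne_zero hr0 hvj) h2
  obtain ⟨j, hj⟩ : ∃ j, v j ≠ 0 := by
    by_contra hc; push Not at hc; exact hv0 (funext hc)
  apply hg1
  apply ext_single
  intro i
  rcases eq_or_ne i j with rfl | hij
  · by_cases hk : ∃ k, k ≠ i ∧ v k ≠ 0
    · obtain ⟨k, hki, hk⟩ := hk
      exact hfe i k hki.symm hk
    · push Not at hk
      have hvi : v = v i • (Pi.single i 1 : M) := by
        funext k
        rcases eq_or_ne k i with rfl | hki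
        · simp
        · simp [hk k hki, hki]
      rw [hvi, map_smul] at hfv
      exact smul_right_injective M hj hfv
  · exact hfe i j hij hj

lemma two_false (a : A false) : a + a = 0 := by
  obtain ⟨a, ha⟩ := a
  apply Subtype.ext
  change a + a = 0
  unfold A at ha
  induction ha using AddSubgroup.closure_induction with
  | mem a ha =>
    rcases ha with ⟨m, rfl⟩ | ⟨m, rfl⟩
    · funext x
      simp only [th, Pi.add_apply, Pi.zero_apply]
      generalize x.q m = b; generalize x.f m = c; revert b c; decide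
    · funext x
      simp only [chi, Pi.add_apply, Pi.zero_apply]
      generalize x.f m = b; revert b; decide
  | zero => simp
  | add a b _ _ h1 h2 => rw [add_add_add_comm, h1, h2, add_zero]
  | neg a _ h1 => rw [← neg_add, h1, neg_zero]

lemma two_true (m : M) : thA true m + thA true m = chiA true m := by
  apply Subtype.ext
  funext x
  change th true m x + th true m x = chi m x
  simp only [th, chi]
  generalize x.q m = b; generalize x.f m = c; revert b c; decide

/-- No finite index subgroup of `G₀` is isomorphic to a finite index subgroup of `G₁`. -/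
theorem nonvirt (S₀ : Subgroup (GG false)) (S₁ : Subgroup (GG true)) (h₀ : S₀.FiniteIndex)
    (h₁ : S₁.FiniteIndex) : IsEmpty (S₀ ≃* S₁) := by
  refine ⟨fun e => ?_⟩
  obtain ⟨a, b, hab, hS⟩ := pigeon S₁
    fun m : M => (inl (Multiplicative.ofAdd (thA true m)) : GG true)
  set x : GG true := (inl (Multiplicative.ofAdd (thA true a)) : GG true)⁻¹ *
    inl (Multiplicative.ofAdd (thA true b)) with hx
  have hxr : x.right = 1 := by simp [hx]
  have hxx : x * x ≠ 1 := by
    intro h
    have h2 : x = inl (Multiplicative.ofAdd (thA true b - thA true a)) := by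
      rw [hx, ← map_inv, ← map_mul, ← ofAdd_neg, ← ofAdd_add, neg_add_eq_sub]
    rw [h2, ← map_mul, ← ofAdd_add, ← map_one inl, ← ofAdd_zero] at h
    have h3 := Multiplicative.ofAdd.injective (inl_injective h)
    have h4 : chiA true (b - a) = 0 := by
      rw [map_sub, ← two_true, ← two_true, ← h3]; abel
    exact hab (sub_eq_zero.mp (chiA_inj true _ h4)).symm
  -- the abelian normal subgroup of `S₁`
  let N₁ : Subgroup S₁ := (MonoidHom.ker (rightHom : GG true →* Gam)).subgroupOf S₁
  have hN₁ : ∀ y : S₁, y ∈ N₁ ↔ y.1.right = 1 := fun y => Iff.rfl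
  let N : Subgroup (GG false) := (N₁.map e.symm.toMonoidHom).map S₀.subtype
  have hcomm : ∀ y ∈ N, ∀ z ∈ N, y * z = z * y := by
    rintro _ ⟨_, ⟨y, hy, rfl⟩, rfl⟩ _ ⟨_, ⟨z, hz, rfl⟩, rfl⟩
    rw [← map_mul, ← map_mul, ← map_mul, ← map_mul]
    congr 2
    apply Subtype.ext
    change y.1 * z.1 = z.1 * y.1
    have hy' : y.1 = inl y.1.left := by
      have := inl_left_mul_inr_right y.1
      rw [(hN₁ y).mp hy, map_one, mul_one] at this
      exact this.symm
    have hz' : z.1 = inl z.1.left := by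
      have := inl_left_mul_inr_right z.1
      rw [(hN₁ z).mp hz, map_one, mul_one] at this
      exact this.symm
    rw [hy', hz', ← map_mul, ← map_mul, mul_comm]
  have hnorm : ∀ k ∈ S₀, ∀ y ∈ N, k * y * k⁻¹ ∈ N := by
    rintro k hk _ ⟨_, ⟨y, hy, rfl⟩, rfl⟩
    refine ⟨_, ⟨e ⟨k, hk⟩ * y * (e ⟨k, hk⟩)⁻¹, ?_, rfl⟩, ?_⟩
    · change (e ⟨k, hk⟩ * y * (e ⟨k, hk⟩)⁻¹) ∈ N₁
      have hy2 : y.1.right = 1 := hy
      rw [hN₁]
      change ((e ⟨k, hk⟩).1 * y.1 * ((e ⟨k, hk⟩).1)⁻¹).right = 1
      rw [mul_right, mul_right, hy2, mul_one, inv_right, mul_inv_cancel]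
    · change (e.symm (e ⟨k, hk⟩ * y * (e ⟨k, hk⟩)⁻¹)).1 = k * (e.symm y).1 * k⁻¹
      rw [map_mul, map_mul, map_inv, MulEquiv.symm_apply_apply]
      rfl
  have hxN : (e.symm ⟨x, hS⟩).1 ∈ N := ⟨_, ⟨⟨x, hS⟩, hxr, rfl⟩, rfl⟩
  have hr := right_eq_one false S₀ N hcomm hnorm _ hxN
  set y := e.symm ⟨x, hS⟩ with hy
  have hyl : y.1 = inl y.1.left := by
    have := inl_left_mul_inr_right y.1
    rw [hr, map_one, mul_one] at this
    exact this.symm
  have hyy : y.1 * y.1 = 1 := by
    rw [hyl, ← map_mul]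
    have : y.1.left * y.1.left = 1 := two_false (Multiplicative.toAdd y.1.left)
    rw [this, map_one]
  apply hxx
  have h5 : y * y = 1 := Subtype.ext hyy
  rw [hy, ← map_mul, ← map_one e.symm] at h5
  have h6 := e.symm.injective h5
  exact congrArg Subtype.val h6

end

end Vale.Agent.P092.Gen
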