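import Vale.Agent.P092.Gen.Spec
import Vale.Agent.P092.Gen.Four
import Vale.Agent.P092.Gen.Fix
import Vale.Agent.P092.Gen.Blocks

open Polynomial

namespace Vale.Agent.P092.Gen

universe u

noncomputable section

lemma el_commute {i j k l : Fin 3} (hij : i ≠ j) (hkl : k ≠ l) (hjk : j ≠ k) (hli : l ≠ i)
    (a b : R) : Commute (el i j hij a) (el k l hkl b) := by
  apply LinearEquiv.ext
  intro m
  change el i j hij a (el k l hkl b m) = el k l hkl b (el i j hij a m)
  simp only [el_apply]
  have h1 : (m + Pi.single k (b * m l) : M) j = m j := by simp [hjk]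
  have h2 : (m + Pi.single i (a * m j) : M) l = m l := by simp [hli]
  rw [h1, h2]
  abel

lemma el_rel {i j k : Fin 3} (hij : i ≠ j) (hjk : j ≠ k) (hik : i ≠ k) (a b : R) :
    el i j hij a * el j k hjk b = el j k hjk b * el i j hij a * el i k hik (a * b) := by
  have h := el_comm i j k hij hjk hik a b
  have h1 : el i j hij a * el j k hjk b
      = el i k hik (a * b) * (el j k hjk b * el i j hij a) := by
    rw [← h]; group
  rw [h1]
  have c1 : Commute (el i k hik (a * b)) (el j k hjk b) := el_commute hik hjk hjk.symm hik.symm _ _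
  have c2 : Commute (el i k hik (a * b)) (el i j hij a) := el_commute hik hij hik.symm hij.symm _ _
  exact (c1.mul_right c2).eq

/-- a homomorphism `K → Gam` from a one parameter family of transvections. -/
def xh (i j : Fin 3) (h : i ≠ j) (c : R) (hm : ∀ k : K, el i j h (c * C k) ∈ Gam) :
    Multiplicative K →* Gam where
  toFun k := ⟨el i j h (c * C k.toAdd), hm _⟩
  map_one' := by
    apply Subtype.ext
    change el i j h (c * C (0 : K)) = 1
    rw [C_0, mul_zero, el_zero]
  map_mul' a b := by
    apply Subtype.ext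
    change el i j h (c * C (a.toAdd + b.toAdd))
      = el i j h (c * C a.toAdd) * el i j h (c * C b.toAdd)
    rw [C_add, mul_add, el_add]

lemma m01 (k : K) : el 0 1 (by decide) (1 * C k) ∈ Gam := el01_mem _
lemma m12 (k : K) : el 1 2 (by decide) (1 * C k) ∈ Gam := el12_mem _
lemma m20 (k : K) : el 2 0 (by decide) (X * C k) ∈ Gam := el20_mem _
lemma m02 (k : K) : el 0 2 (by decide) (1 * C k) ∈ Gam := el02_mem _
lemma m10 (k : K) : el 1 0 (by decide) (X * C k) ∈ Gam := el10_mem _
lemma m21 (k : K) : el 2 1 (by decide) (X * C k) ∈ Gam := el21_mem _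

/-- the three generating subgroups. -/
def xx : Fin 3 → Multiplicative K →* Gam
  | 0 => xh 0 1 (by decide) 1 m01
  | 1 => xh 1 2 (by decide) 1 m12
  | 2 => xh 2 0 (by decide) X m20

/-- the centres of the Heisenberg groups. -/
def zz : Fin 3 → Multiplicative K →* Gam
  | 0 => xh 0 2 (by decide) 1 m02
  | 1 => xh 1 0 (by decide) X m10
  | 2 => xh 2 1 (by decide) X m21

lemma zx (i : Fin 3) (a c : Multiplicative K) : Commute (zz i c) (xx i a) := by
  apply Subtype.ext
  match i with
  | 0 => exact (el_commute (by decide) (by decide) (by decide) (by decide) _ _).eq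
  | 1 => exact (el_commute (by decide) (by decide) (by decide) (by decide) _ _).eq
  | 2 => exact (el_commute (by decide) (by decide) (by decide) (by decide) _ _).eq

lemma zy (i : Fin 3) (b c : Multiplicative K) : Commute (zz i c) (xx (i + 1) b) := by
  apply Subtype.ext
  match i with
  | 0 => exact (el_commute (i := 0) (j := 2) (k := 1) (l := 2)
      (by decide) (by decide) (by decide) (by decide) _ _).eq
  | 1 => exact (el_commute (i := 1) (j := 0) (k := 2) (l := 0)
      (by decide) (by decide) (by decide) (by decide) _ _).eq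
  | 2 => exact (el_commute (i := 2) (j := 1) (k := 0) (l := 1)
      (by decide) (by decide) (by decide) (by decide) _ _).eq

lemma xy (i : Fin 3) (a b : K) :
    xx i (.ofAdd a) * xx (i + 1) (.ofAdd b)
      = xx (i + 1) (.ofAdd b) * xx i (.ofAdd a) * zz i (.ofAdd (a * b)) := by
  apply Subtype.ext
  match i with
  | 0 =>
    have h := el_rel (i := 0) (j := 1) (k := 2) (by decide) (by decide) (by decide)
      (1 * C a) (1 * C b)
    have e : (1 * C a * (1 * C b) : R) = 1 * C (a * b) := by rw [C_mul]; ring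
    rw [e] at h
    exact h
  | 1 =>
    have h := el_rel (i := 1) (j := 2) (k := 0) (by decide) (by decide) (by decide)
      (1 * C a) (X * C b)
    have e : (1 * C a * (X * C b) : R) = X * C (a * b) := by rw [C_mul]; ring
    rw [e] at h
    exact h
  | 2 =>
    have h := el_rel (i := 2) (j := 0) (k := 1) (by decide) (by decide) (by decide)
      (X * C a) (1 * C b)
    have e : (X * C a * (1 * C b) : R) = X * C (a * b) := by rw [C_mul]; ring
    rw [e] at h
    exact h

lemma xx_gen : Subgroup.closure (⋃ i, Set.range (xx i)) = ⊤ := by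
  rw [eq_top_iff]
  have h : Subgroup.closure (((↑) : Gam → (M ≃ₗ[R] M)) ⁻¹'
      ({g | ∃ k : K, g = el 0 1 (by decide) (C k)} ∪
    {g | ∃ k : K, g = el 1 2 (by decide) (C k)} ∪
    {g | ∃ k : K, g = el 2 0 (by decide) (X * C k)})) = ⊤ :=
    Subgroup.closure_closure_coe_preimage
  rw [← h]
  apply Subgroup.closure_mono
  intro g hg
  rw [Set.mem_iUnion]
  rcases hg with (⟨k, hk⟩ | ⟨k, hk⟩) | ⟨k, hk⟩
  · refine ⟨0, .ofAdd k, Subtype.ext ?_⟩
    change el 0 1 (by decide) (1 * C k) = g.1
    rw [one_mul]; exact hk.symm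
  · refine ⟨1, .ofAdd k, Subtype.ext ?_⟩
    change el 1 2 (by decide) (1 * C k) = g.1
    rw [one_mul]; exact hk.symm
  · exact ⟨2, .ofAdd k, Subtype.ext hk.symm⟩

lemma add_self_M (m : M) : m + m = 0 := by
  funext i
  exact CharTwo.add_self_eq_zero (m i)

lemma thA_zero (s : Bool) : thA s 0 = 0 := by
  have h := thA_add s 0 0
  rw [add_zero, map_zero, add_zero] at h
  exact left_eq_add.mp h

lemma decompA (s : Bool) (a : A s) : ∃ n m : M, ∃ δ ∈ AddSubgroup.closure
    {a : A s | ∃ m n, a = beA s m n}, a = thA s n + chiA s m + δ := by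
  have key : ∀ x ∈ A s, ∃ n m : M, ∃ δ ∈ AddSubgroup.closure
      {a : A s | ∃ m n, a = beA s m n}, x = (thA s n + chiA s m + δ : A s).1 := by
    intro x hx
    unfold A at hx
    induction hx using AddSubgroup.closure_induction with
    | mem x hx =>
      rcases hx with ⟨m, rfl⟩ | ⟨m, rfl⟩
      · exact ⟨m, 0, 0, zero_mem _, by rw [map_zero, add_zero, add_zero]; rfl⟩
      · exact ⟨0, m, 0, zero_mem _, by rw [thA_zero, add_zero, zero_add]; rfl⟩
    | zero => exact ⟨0, 0, 0, zero_mem _, by rw [thA_zero, map_zero, add_zero, add_zero]; rfl⟩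
    | add x y _ _ h1 h2 =>
      obtain ⟨n, m, δ, hδ, rfl⟩ := h1
      obtain ⟨n', m', δ', hδ', rfl⟩ := h2
      refine ⟨n + n', m + m', -beA s n n' + δ + δ',
        add_mem (add_mem (neg_mem (AddSubgroup.subset_closure ⟨n, n', rfl⟩)) hδ) hδ', ?_⟩
      rw [← AddSubgroup.coe_add]
      congr 1
      rw [thA_add, map_add]
      abel
    | neg x _ h1 =>
      obtain ⟨n, m, δ, hδ, rfl⟩ := h1
      refine ⟨n, -m, beA s n n - δ,
        sub_mem (AddSubgroup.subset_closure ⟨n, n, rfl⟩) hδ, ?_⟩
      rw [← AddSubgroup.coe_neg]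
      congr 1
      have h2 := thA_add s n n
      rw [add_self_M, thA_zero] at h2
      have h3 : - thA s n = thA s n + beA s n n := by
        rw [neg_eq_iff_add_eq_zero, ← add_assoc]; exact h2.symm
      rw [neg_add, neg_add, h3, map_neg]
      abel
  obtain ⟨n, m, δ, hδ, h⟩ := key a.1 a.2
  exact ⟨n, m, δ, hδ, Subtype.ext h⟩

/-- Property (T) for the two groups. -/
theorem propT (s : Bool) : PropertyT.{u} (GG s) := by
  classical
  have : Fact (Nat.Prime 2) := ⟨Nat.prime_two⟩
  have hfin : Finite K := by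
    apply Nat.finite_of_card_ne_zero
    rw [GaloisField.card 2 3 (by norm_num)]
    norm_num
  have := Fintype.ofFinite K
  let S1 : Finset (GG s) := Finset.univ.image (fun p : Fin 3 × K =>
    (SemidirectProduct.inl (Multiplicative.ofAdd (thA s (E p.1 (C p.2)))) : GG s))
  let S2 : Finset (GG s) := Finset.univ.image (fun p : Fin 3 × K =>
    (SemidirectProduct.inl (Multiplicative.ofAdd (chiA s (E p.1 (C p.2)))) : GG s))
  let S3 : Finset (GG s) := Finset.univ.image (fun p : Fin 3 × K =>
    (SemidirectProduct.inr (xx p.1 (Multiplicative.ofAdd p.2)) : GG s))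
  refine ⟨S1 ∪ S2 ∪ S3, 1 / 100000, by norm_num, ?_⟩
  intro H _ _ _ π v hv hS
  set d : ℝ := 1 / 100000 with hd
  have hS1 : ∀ (i : Fin 3) (k : K), ‖π (SemidirectProduct.inl
      (Multiplicative.ofAdd (thA s (E i (C k))))) v - v‖ ≤ d := by
    intro i k
    apply hS
    exact Finset.mem_union_left _ (Finset.mem_union_left _
      (Finset.mem_image.2 ⟨(i, k), Finset.mem_univ _, rfl⟩))
  have hS2 : ∀ (i : Fin 3) (k : K), ‖π (SemidirectProduct.inl
      (Multiplicative.ofAdd (chiA s (E i (C k))))) v - v‖ ≤ d := by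
    intro i k
    apply hS
    exact Finset.mem_union_left _ (Finset.mem_union_right _
      (Finset.mem_image.2 ⟨(i, k), Finset.mem_univ _, rfl⟩))
  have hS3 : ∀ (i : Fin 3) (k : Multiplicative K),
      ‖π (SemidirectProduct.inr (xx i k)) v - v‖ ≤ d := by
    intro i k
    apply hS
    exact Finset.mem_union_right _ (Finset.mem_image.2 ⟨(i, k.toAdd), Finset.mem_univ _, rfl⟩)
  -- a `Γ`-invariant vector near `v`
  have hcard : Fintype.card K = 8 := by
    have h := GaloisField.card 2 3 (by norm_num)
    rw [Nat.card_eq_fintype_card] at h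
    rw [h]; norm_num
  obtain ⟨w, hw, hvw⟩ := spec (π.comp SemidirectProduct.inr) hcard xx zz zx zy xy xx_gen v d
    (fun i a => hS3 i a)
  have hw' : ∀ g : Gam, π (SemidirectProduct.inr g) w = w := hw
  -- the length function
  set N : A s → ℝ := fun a => ‖π (SemidirectProduct.inl (Multiplicative.ofAdd a)) w - w‖ with hN
  have hadd : ∀ a b, N (a + b) ≤ N a + N b := by
    intro a b
    change ‖π (SemidirectProduct.inl (Multiplicative.ofAdd (a + b))) w - w‖ ≤ _
    rw [ofAdd_add, map_mul, pi_mul]
    have : π (SemidirectProduct.inl (Multiplicative.ofAdd a))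
        (π (SemidirectProduct.inl (Multiplicative.ofAdd b)) w) - w
        = π (SemidirectProduct.inl (Multiplicative.ofAdd a))
          (π (SemidirectProduct.inl (Multiplicative.ofAdd b)) w - w)
          + (π (SemidirectProduct.inl (Multiplicative.ofAdd a)) w - w) := by
      rw [map_sub]; abel
    rw [this]
    refine (norm_add_le _ _).trans ?_
    rw [LinearIsometryEquiv.norm_map]
    exact (add_comm _ _).le
  have hneg : ∀ a, N (-a) = N a := by
    intro a
    change ‖π (SemidirectProduct.inl (Multiplicative.ofAdd (-a))) w - w‖ = _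
    rw [ofAdd_neg, map_inv]
    have h1 : ‖π (SemidirectProduct.inl (Multiplicative.ofAdd a))
        (π (SemidirectProduct.inl (Multiplicative.ofAdd a))⁻¹ w - w)‖
        = ‖π (SemidirectProduct.inl (Multiplicative.ofAdd a))⁻¹ w - w‖ :=
      LinearIsometryEquiv.norm_map _ _
    rw [← h1, map_sub, ← pi_mul, mul_inv_cancel, map_one, norm_sub_rev]
    rfl
  have hsm : ∀ g ∈ Gam, ∀ a, N (sm s g a) = N a := by
    intro g hg a
    change ‖π (SemidirectProduct.inl (Multiplicative.ofAdd (sm s g a))) w - w‖ = _
    have h1 : (SemidirectProduct.inl (Multiplicative.ofAdd (sm s g a)) : GG s)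
        = SemidirectProduct.inr (⟨g, hg⟩ : Gam) * SemidirectProduct.inl (Multiplicative.ofAdd a)
          * SemidirectProduct.inr (⟨g, hg⟩ : Gam)⁻¹ := by
      rw [← SemidirectProduct.inl_aut]; rfl
    rw [h1, pi_mul, pi_mul, hw']
    have h2 : π (SemidirectProduct.inr (⟨g, hg⟩ : Gam))
        (π (SemidirectProduct.inl (Multiplicative.ofAdd a)) w) - w
        = π (SemidirectProduct.inr (⟨g, hg⟩ : Gam))
          (π (SemidirectProduct.inl (Multiplicative.ofAdd a)) w - w) := by
      rw [map_sub, hw']
    rw [h2, LinearIsometryEquiv.norm_map]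
  have hnear : ∀ g : GG s, ‖π g v - v‖ ≤ d → ‖π g w - w‖ ≤ 23 * d := by
    intro g hg
    have h1 : π g w - w = π g (w - v) + (π g v - v) + (v - w) := by
      rw [map_sub]; abel
    rw [h1]
    refine (norm_add_le _ _).trans ?_
    have h2 := norm_add_le (π g (w - v)) (π g v - v)
    rw [LinearIsometryEquiv.norm_map, norm_sub_rev] at h2
    linarith
  have hth := N_theta_le N hadd hneg (thA s) (beA s) (thA_add s)
    (fun g hg m => by rw [← sm_thA]; exact hsm g hg _)
    (fun g hg m n => by rw [← sm_beA]; exact hsm g hg _) (23 * d)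
    (fun i k => hnear _ (hS1 i k))
  have hbe := N_beta N hadd hneg (thA s) (beA s) (thA_add s)
    (fun g hg m => by rw [← sm_thA]; exact hsm g hg _)
    (fun g hg m n => by rw [← sm_beA]; exact hsm g hg _) (23 * d)
    (fun i k => hnear _ (hS1 i k))
  have hchi := N_theta_le N hadd hneg (chiA s) (0 : M →+ M →+ A s)
    (fun m n => by rw [map_add]; simp)
    (fun g hg m => by rw [← sm_chiA]; exact hsm g hg _)
    (fun g hg m n => rfl) (23 * d)
    (fun i k => hnear _ (hS2 i k))
  have hfour := four (π.comp SemidirectProduct.inl) (beA s) add_self_M w (227 * (23 * d))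
    (fun m n => hbe m n)
  have hall : ∀ a, N a ≤ 19642 * d := by
    intro a
    obtain ⟨n, m, δ, hδ, rfl⟩ := decompA s a
    have h1 : N δ ≤ 2 * (227 * (23 * d)) := hfour δ hδ
    have h2 := hth n
    have h3 := hchi m
    have h4 := hadd (thA s n + chiA s m) δ
    have h5 := hadd (thA s n) (chiA s m)
    linarith
  have hwn : 1 - 11 * d ≤ ‖w‖ := by
    have := norm_sub_norm_le v w
    rw [hv] at this
    linarith
  have hw0 : w ≠ 0 := by
    rintro rfl
    rw [norm_zero, hd] at hwn
    norm_num at hwn
  refine exists_fix π w hw0 ?_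
  intro g
  have h1 : π g w = π (SemidirectProduct.inl (Multiplicative.ofAdd g.left.toAdd)) w := by
    conv_lhs => rw [← SemidirectProduct.inl_left_mul_inr_right g]
    rw [pi_mul, hw']
    rfl
  rw [h1]
  refine (hall g.left.toAdd).trans ?_
  rw [hd] at hwn ⊢
  linarith

end

end Vale.Agent.P092.Gen
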