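import Mathlib

/-!
# P092, [SPEC]: three subgroups with small angles give a spectral gap

Let `x 0, x 1, x 2 : K → G` be three copies of the additive group of a field with
eight elements, such that `x i` and `x (i+1)` generate a Heisenberg group with centre
`z i`.  If `G` is generated by the `x i` then every vector which is moved by at most
`d` by the elements of the `x i` is within `11 d` of a `G`-invariant vector.
-/

namespace Vale.Agent.P092.Gen

open scoped InnerProductSpace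

noncomputable section

section Avg

variable {G H : Type*} [Group G] [NormedAddCommGroup H] [InnerProductSpace ℂ H]

/-- average of a unitary representation over a finite group mapped to `G`. -/
def avg {U : Type*} [Group U] [Fintype U] (pi : G →* (H ≃ₗᵢ[ℂ] H)) (x : U →* G) : H →L[ℂ] H :=
  ((Fintype.card U : ℂ)⁻¹) • ∑ u : U, ((pi (x u)).toContinuousLinearEquiv : H →L[ℂ] H)

variable {U : Type*} [Group U] [Fintype U] (pi : G →* (H ≃ₗᵢ[ℂ] H)) (x : U →* G)

theorem avg_apply (v : H) :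
    avg pi x v = ((Fintype.card U : ℂ)⁻¹) • ∑ u : U, pi (x u) v := by
  simp [avg]

theorem card_ne : (Fintype.card U : ℂ) ≠ 0 := by
  exact_mod_cast Fintype.card_ne_zero

theorem avg_fixed (u : U) (v : H) : pi (x u) (avg pi x v) = avg pi x v := by
  rw [avg_apply, map_smul, map_sum]
  congr 1
  rw [← Equiv.sum_comp (Equiv.mulLeft u) (fun w => pi (x w) v)]
  refine Finset.sum_congr rfl fun w _ => ?_
  simp only [Equiv.coe_mulLeft, map_mul]
  rfl

theorem avg_of_fixed {v : H} (h : ∀ u, pi (x u) v = v) : avg pi x v = v := by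
  rw [avg_apply]
  simp only [h, Finset.sum_const, Finset.card_univ]
  rw [← Nat.cast_smul_eq_nsmul ℂ, smul_smul, inv_mul_cancel₀ (card_ne (U := U)), one_smul]

theorem avg_idem (v : H) : avg pi x (avg pi x v) = avg pi x v :=
  avg_of_fixed pi x fun u => avg_fixed pi x u v

theorem inner_pi_left (g : G) (v w : H) : ⟪pi g v, w⟫_ℂ = ⟪v, pi g⁻¹ w⟫_ℂ := by
  have h : w = pi g (pi g⁻¹ w) := by
    have : (pi g * pi g⁻¹) w = w := by rw [← map_mul, mul_inv_cancel, map_one]; rfl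
    exact this.symm
  conv_lhs => rw [h]
  exact (pi g).inner_map_map v _

theorem inner_avg (v w : H) : ⟪avg pi x v, w⟫_ℂ = ⟪v, avg pi x w⟫_ℂ := by
  rw [avg_apply, avg_apply, inner_smul_left, inner_smul_right, sum_inner, inner_sum]
  congr 1
  · simp
  · rw [← Equiv.sum_comp (Equiv.inv U)]
    refine Finset.sum_congr rfl fun u _ => ?_
    rw [inner_pi_left]
    simp

theorem norm_sub_avg_le {v : H} {d : ℝ} (h : ∀ u, ‖pi (x u) v - v‖ ≤ d) :
    ‖v - avg pi x v‖ ≤ d := by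
  have h1 : v - avg pi x v = ((Fintype.card U : ℂ)⁻¹) • ∑ u : U, (v - pi (x u) v) := by
    rw [Finset.sum_sub_distrib, smul_sub, ← avg_apply]
    congr 1
    rw [Finset.sum_const, Finset.card_univ, ← Nat.cast_smul_eq_nsmul ℂ, smul_smul,
      inv_mul_cancel₀ (card_ne (U := U)), one_smul]
  rw [h1, norm_smul]
  have h2 : ‖∑ u : U, (v - pi (x u) v)‖ ≤ (Fintype.card U : ℝ) * d := by
    refine (norm_sum_le _ _).trans ?_
    have : ∑ u : U, ‖v - pi (x u) v‖ ≤ ∑ _u : U, d :=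
      Finset.sum_le_sum fun u _ => by rw [norm_sub_rev]; exact h u
    simpa [Finset.sum_const, Finset.card_univ] using this
  have h3 : ‖((Fintype.card U : ℂ)⁻¹)‖ = ((Fintype.card U : ℝ))⁻¹ := by simp
  rw [h3]
  have h4 : (0 : ℝ) < (Fintype.card U : ℝ) := by exact_mod_cast Fintype.card_pos
  calc ((Fintype.card U : ℝ))⁻¹ * ‖∑ u : U, (v - pi (x u) v)‖
      ≤ ((Fintype.card U : ℝ))⁻¹ * ((Fintype.card U : ℝ) * d) :=
        mul_le_mul_of_nonneg_left h2 (inv_nonneg.2 h4.le)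
    _ = d := by field_simp

theorem re_inner_avg_self (v : H) : (⟪avg pi x v, v⟫_ℂ).re = ‖avg pi x v‖ ^ 2 := by
  have h : ⟪avg pi x v, v⟫_ℂ = ⟪avg pi x v, avg pi x v⟫_ℂ := by
    conv_lhs => rw [← avg_idem pi x v]
    rw [inner_avg]
  rw [h, inner_self_eq_norm_sq_to_K]
  norm_cast

theorem re_inner_self_avg (v : H) : (⟪v, avg pi x v⟫_ℂ).re = ‖avg pi x v‖ ^ 2 := by
  rw [← inner_avg, re_inner_avg_self]

theorem norm_sq_sub_avg (v : H) : ‖v - avg pi x v‖ ^ 2 = ‖v‖ ^ 2 - ‖avg pi x v‖ ^ 2 := by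
  have h := @norm_sub_sq ℂ H _ _ _ v (avg pi x v)
  rw [h]
  have : RCLike.re ⟪v, avg pi x v⟫_ℂ = ‖avg pi x v‖ ^ 2 := re_inner_self_avg pi x v
  rw [this]
  ring

theorem norm_avg_le (v : H) : ‖avg pi x v‖ ≤ ‖v‖ := by
  have h := norm_sq_sub_avg pi x v
  have h2 : ‖avg pi x v‖ ^ 2 ≤ ‖v‖ ^ 2 := by nlinarith [sq_nonneg ‖v - avg pi x v‖]
  exact (pow_le_pow_iff_left₀ (norm_nonneg _) (norm_nonneg _) two_ne_zero).1 h2

end Avg

section Pair

variable {G H : Type*} [Group G] [NormedAddCommGroup H] [InnerProductSpace ℂ H]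
variable (pi : G →* (H ≃ₗᵢ[ℂ] H)) {K : Type*} [Field K] [Fintype K]
variable (x y z : Multiplicative K →* G)

theorem pi_mul (g h : G) (v : H) : pi (g * h) v = pi g (pi h v) := by
  rw [map_mul]; rfl

/-- `P₂ P_z p` is fixed by the first group if `p` is. -/
theorem fixed_PP (hzx : ∀ a c, Commute (z c) (x a))
    (hxy : ∀ a b : K, x (.ofAdd a) * y (.ofAdd b) = y (.ofAdd b) * x (.ofAdd a) * z (.ofAdd (a * b)))
    {p : H} (hp : ∀ a, pi (x a) p = p) (a : Multiplicative K) :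
    pi (x a) (avg pi y (avg pi z p)) = avg pi y (avg pi z p) := by
  conv_lhs => rw [avg_apply, map_smul, map_sum]
  rw [avg_apply pi y]
  congr 1
  refine Finset.sum_congr rfl fun b _ => ?_
  rw [← pi_mul]
  have h1 : x a * y b = y b * x a * z (.ofAdd (a.toAdd * b.toAdd)) := hxy a.toAdd b.toAdd
  rw [h1, pi_mul, avg_fixed, pi_mul]
  congr 1
  rw [avg_apply, map_smul, map_sum]
  congr 1
  refine Finset.sum_congr rfl fun c _ => ?_
  rw [← pi_mul, ← (hzx a c).eq, pi_mul, hp]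

/-- `P₁ P₂ p = P₂ P_z p + (p - P_z p) / q` for `p` fixed by the first group. -/
theorem avg_avg (hzx : ∀ a c, Commute (z c) (x a))
    (hxy : ∀ a b : K, x (.ofAdd a) * y (.ofAdd b) = y (.ofAdd b) * x (.ofAdd a) * z (.ofAdd (a * b)))
    {p : H} (hp : ∀ a, pi (x a) p = p) :
    avg pi x (avg pi y p) = avg pi y (avg pi z p)
      + ((Fintype.card K : ℂ)⁻¹) • (p - avg pi z p) := by
  classical
  have hq : (Fintype.card K : ℂ) ≠ 0 := by exact_mod_cast Fintype.card_ne_zero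
  have hc : Fintype.card (Multiplicative K) = Fintype.card K := Fintype.card_multiplicative K
  -- the inner sums
  have hin : ∀ b : Multiplicative K, ∑ a : Multiplicative K, pi (x a) (pi (y b) p)
      = pi (y b) (∑ a : Multiplicative K, pi (z (.ofAdd (a.toAdd * b.toAdd))) p) := by
    intro b
    rw [map_sum]
    refine Finset.sum_congr rfl fun a _ => ?_
    rw [← pi_mul]
    have h1 : x a * y b = y b * x a * z (.ofAdd (a.toAdd * b.toAdd)) := hxy a.toAdd b.toAdd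
    rw [h1, mul_assoc, ← (hzx a _).eq, pi_mul, pi_mul, hp]
  have hin2 : ∀ b : Multiplicative K, b ≠ 1 →
      ∑ a : Multiplicative K, pi (z (.ofAdd (a.toAdd * b.toAdd))) p
        = (Fintype.card K : ℂ) • avg pi z p := by
    intro b hb
    have hb' : b.toAdd ≠ 0 := fun h => hb (by rw [← ofAdd_toAdd b, h]; rfl)
    rw [avg_apply, hc, smul_smul, mul_inv_cancel₀ hq, one_smul]
    exact Fintype.sum_equiv
      ((Multiplicative.toAdd).trans ((Equiv.mulRight₀ b.toAdd hb').trans Multiplicative.ofAdd))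
      _ _ (fun a => rfl)
  have hin1 : ∑ a : Multiplicative K, pi (z (.ofAdd (a.toAdd * (1 : Multiplicative K).toAdd))) p
        = (Fintype.card K : ℂ) • p := by
    have : ∀ a : Multiplicative K, pi (z (.ofAdd (a.toAdd * (1 : Multiplicative K).toAdd))) p = p := by
      intro a
      rw [toAdd_one, mul_zero, ofAdd_zero, map_one, map_one]
      rfl
    simp only [this, Finset.sum_const, Finset.card_univ, hc]
    rw [← Nat.cast_smul_eq_nsmul ℂ]
  have h0 : avg pi x (avg pi y p) = ((Fintype.card K : ℂ)⁻¹) • ((Fintype.card K : ℂ)⁻¹) •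
      ∑ b : Multiplicative K, ∑ a : Multiplicative K, pi (x a) (pi (y b) p) := by
    rw [avg_apply pi x, avg_apply pi y, hc]
    congr 1
    have h9 : ∀ a : Multiplicative K,
        pi (x a) (((Fintype.card K : ℂ)⁻¹) • ∑ b : Multiplicative K, pi (y b) p)
          = ((Fintype.card K : ℂ)⁻¹) • ∑ b : Multiplicative K, pi (x a) (pi (y b) p) := by
      intro a
      rw [map_smul, map_sum]
    simp only [h9]
    rw [← Finset.smul_sum, Finset.sum_comm]
  rw [h0]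
  simp only [hin]
  rw [← Finset.add_sum_erase Finset.univ _ (Finset.mem_univ (1 : Multiplicative K))]
  have h1 : ∑ b ∈ Finset.univ.erase (1 : Multiplicative K),
        pi (y b) (∑ a : Multiplicative K, pi (z (.ofAdd (a.toAdd * b.toAdd))) p)
      = (Fintype.card K : ℂ) • ((Fintype.card K : ℂ) • avg pi y (avg pi z p) - avg pi z p) := by
    have h2 : ∑ b ∈ Finset.univ.erase (1 : Multiplicative K),
        pi (y b) (∑ a : Multiplicative K, pi (z (.ofAdd (a.toAdd * b.toAdd))) p)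
        = ∑ b ∈ Finset.univ.erase (1 : Multiplicative K),
          (Fintype.card K : ℂ) • pi (y b) (avg pi z p) := by
      refine Finset.sum_congr rfl fun b hb => ?_
      rw [hin2 b (Finset.ne_of_mem_erase hb), map_smul]
    rw [h2, ← Finset.smul_sum]
    congr 1
    rw [avg_apply pi y, hc, smul_smul, mul_inv_cancel₀ hq, one_smul,
      ← Finset.add_sum_erase Finset.univ (fun b : Multiplicative K => pi (y b) (avg pi z p))
        (Finset.mem_univ (1 : Multiplicative K)), map_one, map_one]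
    simp
  rw [h1, hin1, map_one, map_one]
  simp only [LinearIsometryEquiv.coe_one, id_eq, smul_add, smul_sub, smul_smul]
  have e1 : (Fintype.card K : ℂ)⁻¹ * ((Fintype.card K : ℂ)⁻¹ * (Fintype.card K : ℂ))
      = (Fintype.card K : ℂ)⁻¹ := by field_simp
  have e2 : (Fintype.card K : ℂ)⁻¹ * ((Fintype.card K : ℂ)⁻¹ * ((Fintype.card K : ℂ)
      * (Fintype.card K : ℂ))) = 1 := by field_simp
  rw [e1, e2, one_smul]
  abel

/-- the angle between two adjacent subgroups. -/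
theorem angle (hzx : ∀ a c, Commute (z c) (x a))
    (hxy : ∀ a b : K, x (.ofAdd a) * y (.ofAdd b) = y (.ofAdd b) * x (.ofAdd a) * z (.ofAdd (a * b)))
    {p : H} (hp : ∀ a, pi (x a) p = p)
    (horth : ∀ w : H, (∀ a, pi (x a) w = w) → (∀ b, pi (y b) w = w) → ⟪w, p⟫_ℂ = 0) :
    ‖avg pi y p‖ ^ 2 ≤ ‖p‖ ^ 2 / Fintype.card K := by
  have hq : (0 : ℝ) < Fintype.card K := by exact_mod_cast Fintype.card_pos
  have h1 : ‖avg pi y p‖ ^ 2 = (⟪avg pi x (avg pi y p), p⟫_ℂ).re := by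
    rw [inner_avg, avg_of_fixed pi x hp, re_inner_avg_self]
  have h2 := avg_avg pi x y z hzx hxy hp
  have h3 : ⟪avg pi y (avg pi z p), p⟫_ℂ = 0 :=
    horth _ (fixed_PP pi x y z hzx hxy hp) (fun b => avg_fixed pi y b _)
  rw [h1, h2, inner_add_left, h3, zero_add, inner_smul_left, inner_sub_left]
  have h4 : (⟪avg pi z p, p⟫_ℂ).re = ‖avg pi z p‖ ^ 2 := re_inner_avg_self pi z p
  have h5 : (⟪p, p⟫_ℂ) = ((‖p‖ ^ 2 : ℝ) : ℂ) := by
    rw [inner_self_eq_norm_sq_to_K]; norm_cast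
  have h6 : (starRingEnd ℂ) ((Fintype.card K : ℂ)⁻¹) = (((Fintype.card K : ℝ)⁻¹ : ℝ) : ℂ) := by
    simp
  rw [h6, Complex.re_ofReal_mul, Complex.sub_re, h4, h5, Complex.ofReal_re, div_eq_inv_mul]
  exact mul_le_mul_of_nonneg_left (by nlinarith [sq_nonneg ‖avg pi z p‖]) (inv_nonneg.2 hq.le)

end Pair

section Vec

variable {H : Type*} [NormedAddCommGroup H] [InnerProductSpace ℂ H]

/-- the elementary vector inequality. -/
theorem vec_ineq {e : ℝ} (he0 : 0 ≤ e) (he1 : e ≤ 1) (v p q : H)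
    (hp : (⟪v, p⟫_ℂ).re = ‖p‖ ^ 2) (hq : (⟪v, q⟫_ℂ).re = ‖q‖ ^ 2)
    (hpq : (⟪p, q⟫_ℂ).re ≤ e / 2 * (‖p‖ ^ 2 + ‖q‖ ^ 2)) :
    0 ≤ 2 * (⟪v - p, v - q⟫_ℂ).re + e * (‖v - p‖ ^ 2 + ‖v - q‖ ^ 2) := by
  have hvp : ‖v - p‖ ^ 2 = ‖v‖ ^ 2 - ‖p‖ ^ 2 := by
    have h := @norm_sub_sq ℂ H _ _ _ v p
    rw [h]
    have : RCLike.re ⟪v, p⟫_ℂ = ‖p‖ ^ 2 := hp
    rw [this]; ring
  have hvq : ‖v - q‖ ^ 2 = ‖v‖ ^ 2 - ‖q‖ ^ 2 := by
    have h := @norm_sub_sq ℂ H _ _ _ v q
    rw [h]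
    have : RCLike.re ⟪v, q⟫_ℂ = ‖q‖ ^ 2 := hq
    rw [this]; ring
  have hin : (⟪v - p, v - q⟫_ℂ).re = ‖v‖ ^ 2 - ‖p‖ ^ 2 - ‖q‖ ^ 2 + (⟪p, q⟫_ℂ).re := by
    rw [inner_sub_left, inner_sub_right, inner_sub_right]
    have h1 : (⟪p, v⟫_ℂ).re = ‖p‖ ^ 2 := by
      rw [← hp, ← inner_conj_symm, Complex.conj_re]
    have h2 : (⟪v, v⟫_ℂ).re = ‖v‖ ^ 2 := by
      have := @inner_self_eq_norm_sq ℂ H _ _ _ v
      exact this
    simp only [Complex.sub_re, h1, h2, hq]
    ring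
  -- the square `‖(1+e) v - (p+q)‖² ≥ 0`
  have hsq : 0 ≤ (1 + e) ^ 2 * ‖v‖ ^ 2 - 2 * (1 + e) * (‖p‖ ^ 2 + ‖q‖ ^ 2)
      + (‖p‖ ^ 2 + ‖q‖ ^ 2 + 2 * (⟪p, q⟫_ℂ).re) := by
    have h0 : 0 ≤ ‖(((1 + e : ℝ) : ℂ)) • v - (p + q)‖ ^ 2 := sq_nonneg _
    have h := @norm_sub_sq ℂ H _ _ _ ((((1 + e : ℝ) : ℂ)) • v) (p + q)
    have h2 := @norm_add_sq ℂ H _ _ _ p q
    have h3 : RCLike.re ⟪(((1 + e : ℝ) : ℂ)) • v, p + q⟫_ℂ = (1 + e) * (‖p‖ ^ 2 + ‖q‖ ^ 2) := by
      rw [inner_smul_left, inner_add_right, Complex.conj_ofReal]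
      have : RCLike.re ((((1 + e : ℝ) : ℂ)) * (⟪v, p⟫_ℂ + ⟪v, q⟫_ℂ))
          = (((((1 + e : ℝ) : ℂ)) * (⟪v, p⟫_ℂ + ⟪v, q⟫_ℂ))).re := rfl
      rw [this, Complex.re_ofReal_mul, Complex.add_re, hp, hq]
    have h4 : ‖(((1 + e : ℝ) : ℂ)) • v‖ ^ 2 = (1 + e) ^ 2 * ‖v‖ ^ 2 := by
      rw [norm_smul, mul_pow]
      congr 1
      rw [Complex.norm_real, Real.norm_eq_abs, sq_abs]
    have h5 : RCLike.re ⟪p, q⟫_ℂ = (⟪p, q⟫_ℂ).re := rfl
    rw [h, h2, h3, h4, h5] at h0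
    nlinarith [h0]
  rw [hvp, hvq, hin]
  set A := ‖p‖ ^ 2 + ‖q‖ ^ 2 with hA
  set C := (⟪p, q⟫_ℂ).re with hC
  set N := ‖v‖ ^ 2 with hN
  have hgoal : 2 * (N - ‖p‖ ^ 2 - ‖q‖ ^ 2 + C) + e * (N - ‖p‖ ^ 2 + (N - ‖q‖ ^ 2))
      = 2 * (1 + e) * N - (2 + e) * A + 2 * C := by rw [hA]; ring
  rw [hgoal]
  have h1e : 0 < 1 + e := by linarith
  have hkey : 0 ≤ (1 + e) * (2 * (1 + e) * N - (2 + e) * A + 2 * C) := by
    have h6 : (1 + e) * (2 * (1 + e) * N - (2 + e) * A + 2 * C)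
        = 2 * ((1 + e) ^ 2 * N - 2 * (1 + e) * A + (A + 2 * C)) + (1 - e) * (e * A - 2 * C) := by
      ring
    rw [h6]
    have h7 : 0 ≤ (1 - e) * (e * A - 2 * C) :=
      mul_nonneg (by linarith) (by linarith)
    linarith
  exact nonneg_of_mul_nonneg_right hkey h1e

end Vec

section Main

variable {G H : Type*} [Group G] [NormedAddCommGroup H] [InnerProductSpace ℂ H] [CompleteSpace H]
variable (pi : G →* (H ≃ₗᵢ[ℂ] H)) {K : Type*} [Field K] [Fintype K]

/-- the angle inequality for the complements, for every vector. -/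
theorem pair_ineq (x y z : Multiplicative K →* G) (hK : Fintype.card K = 8)
    (hzx : ∀ a c, Commute (z c) (x a))
    (hxy : ∀ a b : K, x (.ofAdd a) * y (.ofAdd b) = y (.ofAdd b) * x (.ofAdd a) * z (.ofAdd (a * b)))
    {e : ℝ} (he0 : 0 ≤ e) (he1 : e ≤ 1) (he : 1 / 8 ≤ e ^ 2) (v : H) :
    0 ≤ 2 * (⟪v - avg pi x v, v - avg pi y v⟫_ℂ).re
      + e * (‖v - avg pi x v‖ ^ 2 + ‖v - avg pi y v‖ ^ 2) := by
  -- the fixed space of both groups
  let F : Submodule ℂ H :=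
    { carrier := {w | (∀ a, pi (x a) w = w) ∧ ∀ b, pi (y b) w = w}
      add_mem' := fun {u w} hu hw => ⟨fun a => by rw [map_add, hu.1, hw.1],
        fun b => by rw [map_add, hu.2, hw.2]⟩
      zero_mem' := ⟨fun a => map_zero _, fun b => map_zero _⟩
      smul_mem' := fun c w hw => ⟨fun a => by rw [map_smul, hw.1], fun b => by rw [map_smul, hw.2]⟩ }
  have hFc : IsClosed (F : Set H) := by
    have : (F : Set H) = (⋂ a, {w | pi (x a) w = w}) ∩ ⋂ b, {w | pi (y b) w = w} := by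
      ext w; simp [F]
    rw [this]
    refine IsClosed.inter (isClosed_iInter fun a => ?_) (isClosed_iInter fun b => ?_)
    · exact isClosed_eq (pi (x a)).continuous continuous_id
    · exact isClosed_eq (pi (y b)).continuous continuous_id
  have : CompleteSpace F := hFc.completeSpace_coe
  set w := F.starProjection v with hw
  have hwF : w ∈ F := F.starProjection_apply_mem v
  have horth : ∀ u ∈ F, ⟪u, v - w⟫_ℂ = 0 := by
    intro u hu
    have := F.sub_starProjection_mem_orthogonal v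
    exact (Submodule.mem_orthogonal F _).1 this u hu
  set v0 := v - w with hv0
  have hx : v - avg pi x v = v0 - avg pi x v0 := by
    rw [hv0, map_sub, avg_of_fixed pi x hwF.1]; abel
  have hy : v - avg pi y v = v0 - avg pi y v0 := by
    rw [hv0, map_sub, avg_of_fixed pi y hwF.2]; abel
  rw [hx, hy]
  refine vec_ineq he0 he1 v0 _ _ (re_inner_self_avg pi x v0) (re_inner_self_avg pi y v0) ?_
  have hang : ‖avg pi y (avg pi x v0)‖ ^ 2 ≤ ‖avg pi x v0‖ ^ 2 / Fintype.card K := by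
    refine angle pi x y z hzx hxy (fun a => avg_fixed pi x a v0) ?_
    intro u hu1 hu2
    rw [← inner_avg, avg_of_fixed pi x hu1]
    exact horth u ⟨hu1, hu2⟩
  rw [hK] at hang
  have h1 : (⟪avg pi x v0, avg pi y v0⟫_ℂ).re
      = (⟪avg pi y (avg pi x v0), avg pi y v0⟫_ℂ).re := by
    rw [inner_avg pi y (avg pi x v0), avg_idem]
  have h2 : (⟪avg pi y (avg pi x v0), avg pi y v0⟫_ℂ).re
      ≤ ‖avg pi y (avg pi x v0)‖ * ‖avg pi y v0‖ :=
    (Complex.re_le_norm _).trans (norm_inner_le_norm _ _)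
  have h3 : ‖avg pi y (avg pi x v0)‖ ≤ e * ‖avg pi x v0‖ := by
    refine (pow_le_pow_iff_left₀ (norm_nonneg _) (by positivity) two_ne_zero).1 ?_
    rw [mul_pow]
    refine hang.trans ?_
    have := sq_nonneg ‖avg pi x v0‖
    push_cast
    nlinarith
  rw [h1]
  refine h2.trans ?_
  have h4 : ‖avg pi y (avg pi x v0)‖ * ‖avg pi y v0‖ ≤ e * ‖avg pi x v0‖ * ‖avg pi y v0‖ :=
    mul_le_mul_of_nonneg_right h3 (norm_nonneg _)
  refine h4.trans ?_
  nlinarith [mul_nonneg he0 (sq_nonneg (‖avg pi x v0‖ - ‖avg pi y v0‖))]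

/-- `Q_i v`. -/
def comp (x : Multiplicative K →* G) (v : H) : H := v - avg pi x v

omit [CompleteSpace H] in
theorem comp_re (x : Multiplicative K →* G) (v : H) :
    (⟪comp pi x v, v⟫_ℂ).re = ‖comp pi x v‖ ^ 2 := by
  unfold comp
  rw [inner_sub_left, Complex.sub_re, re_inner_avg_self, norm_sq_sub_avg]
  have h2 : (⟪v, v⟫_ℂ).re = ‖v‖ ^ 2 := @inner_self_eq_norm_sq ℂ H _ _ _ v
  rw [h2]

omit [CompleteSpace H] in
theorem comp_inner (x : Multiplicative K →* G) (v w : H) :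
    ⟪comp pi x v, w⟫_ℂ = ⟪comp pi x v, comp pi x w⟫_ℂ := by
  unfold comp
  rw [inner_sub_right (v - avg pi x v) w, inner_sub_left v _ (avg pi x w), inner_avg,
    avg_idem, sub_self, sub_zero]

/-- the Laplacian. -/
def lap (x : Fin 3 → Multiplicative K →* G) : H →L[ℂ] H :=
  ∑ i, (ContinuousLinearMap.id ℂ H - avg pi (x i))

omit [CompleteSpace H] in
theorem lap_apply (x : Fin 3 → Multiplicative K →* G) (v : H) :
    lap pi x v = ∑ i, comp pi (x i) v := by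
  simp [lap, comp]

omit [CompleteSpace H] in
theorem lap_re (x : Fin 3 → Multiplicative K →* G) (v : H) :
    (⟪lap pi x v, v⟫_ℂ).re = ∑ i, ‖comp pi (x i) v‖ ^ 2 := by
  rw [lap_apply, sum_inner, Complex.re_sum]
  exact Finset.sum_congr rfl fun i _ => comp_re pi (x i) v

omit [CompleteSpace H] in
theorem lap_symm (x : Fin 3 → Multiplicative K →* G) (v w : H) :
    ⟪lap pi x v, w⟫_ℂ = ⟪v, lap pi x w⟫_ℂ := by
  rw [lap_apply, lap_apply, sum_inner, inner_sum]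
  refine Finset.sum_congr rfl fun i _ => ?_
  unfold comp
  rw [inner_sub_left, inner_sub_right, inner_avg]

/-- `⟨D²v, v⟩ ≥ c ⟨Dv, v⟩`. -/
theorem lap_sq (x z : Fin 3 → Multiplicative K →* G) (hK : Fintype.card K = 8)
    (hzx : ∀ i a c, Commute (z i c) (x i a))
    (hxy : ∀ i (a b : K), x i (.ofAdd a) * x (i + 1) (.ofAdd b)
      = x (i + 1) (.ofAdd b) * x i (.ofAdd a) * z i (.ofAdd (a * b))) (v : H) :
    (2928 / 10000 : ℝ) * ∑ i, ‖comp pi (x i) v‖ ^ 2 ≤ ‖lap pi x v‖ ^ 2 := by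
  have h : ∀ i : Fin 3, 0 ≤ 2 * (⟪comp pi (x i) v, comp pi (x (i + 1)) v⟫_ℂ).re
      + (3536 / 10000 : ℝ) * (‖comp pi (x i) v‖ ^ 2 + ‖comp pi (x (i + 1)) v‖ ^ 2) := fun i =>
    pair_ineq pi (x i) (x (i + 1)) (z i) hK (hzx i) (hxy i) (by norm_num) (by norm_num)
      (by norm_num) v
  have h0 := h 0
  have h1 := h 1
  have h2 := h 2
  have e1 : (0 : Fin 3) + 1 = 1 := rfl
  have e2 : (1 : Fin 3) + 1 = 2 := rfl
  have e3 : (2 : Fin 3) + 1 = 0 := rfl
  rw [e1] at h0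
  rw [e2] at h1
  rw [e3] at h2
  rw [lap_apply, Fin.sum_univ_three, Fin.sum_univ_three]
  set a := comp pi (x 0) v
  set b := comp pi (x 1) v
  set c := comp pi (x 2) v
  have g1 := @norm_add_sq ℂ H _ _ _ (a + b) c
  have g2 := @norm_add_sq ℂ H _ _ _ a b
  have g3 : RCLike.re ⟪a + b, c⟫_ℂ = (⟪a, c⟫_ℂ).re + (⟪b, c⟫_ℂ).re := by
    rw [inner_add_left]; rfl
  have g4 : (⟪a, c⟫_ℂ).re = (⟪c, a⟫_ℂ).re := by
    rw [← inner_conj_symm, Complex.conj_re]
  have g5 : RCLike.re ⟪a, b⟫_ℂ = (⟪a, b⟫_ℂ).re := rfl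
  rw [g1, g2, g3, g4, g5]
  linarith

/-- `⟨D w, w⟩ ≥ c ‖w‖²` for `w` in the range of `D`. -/
theorem lap_range (x z : Fin 3 → Multiplicative K →* G) (hK : Fintype.card K = 8)
    (hzx : ∀ i a c, Commute (z i c) (x i a))
    (hxy : ∀ i (a b : K), x i (.ofAdd a) * x (i + 1) (.ofAdd b)
      = x (i + 1) (.ofAdd b) * x i (.ofAdd a) * z i (.ofAdd (a * b))) (u : H) :
    (2928 / 10000 : ℝ) * ‖lap pi x u‖ ^ 2 ≤ (⟪lap pi x (lap pi x u), lap pi x u⟫_ℂ).re := by
  set w := lap pi x u with hw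
  have h1 := lap_sq pi x z hK hzx hxy u
  rw [← hw] at h1
  rw [lap_re]
  set m1 := ∑ i, ‖comp pi (x i) u‖ ^ 2
  set m3 := ∑ i, ‖comp pi (x i) w‖ ^ 2
  have hm1 : 0 ≤ m1 := Finset.sum_nonneg fun i _ => sq_nonneg _
  have hm3 : 0 ≤ m3 := Finset.sum_nonneg fun i _ => sq_nonneg _
  have h2 : (‖w‖ ^ 2) ^ 2 ≤ m1 * m3 := by
    have h3 : ‖w‖ ^ 2 ≤ ∑ i, ‖comp pi (x i) u‖ * ‖comp pi (x i) w‖ := by
      have h4 : ‖w‖ ^ 2 = (⟪lap pi x u, w⟫_ℂ).re := by
        rw [← hw]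
        exact (@inner_self_eq_norm_sq ℂ H _ _ _ w).symm
      rw [h4, lap_apply, sum_inner, Complex.re_sum]
      refine Finset.sum_le_sum fun i _ => ?_
      rw [comp_inner]
      exact (Complex.re_le_norm _).trans (norm_inner_le_norm _ _)
    have h5 : (∑ i, ‖comp pi (x i) u‖ * ‖comp pi (x i) w‖) ^ 2 ≤ m1 * m3 :=
      Finset.sum_mul_sq_le_sq_mul_sq _ _ _
    exact (pow_le_pow_left₀ (sq_nonneg _) h3 2).trans h5
  rcases eq_or_lt_of_le (sq_nonneg ‖w‖) with h0 | h0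
  · rw [← h0]; linarith
  · -- `‖w‖^4 ≤ m1 m3 ≤ (‖w‖² / c) m3`
    have h6 : (2928 / 10000 : ℝ) * (‖w‖ ^ 2) ^ 2 ≤ ‖w‖ ^ 2 * m3 := by
      have := mul_le_mul_of_nonneg_right h1 hm3
      nlinarith
    have h7 : ‖w‖ ^ 2 * ((2928 / 10000 : ℝ) * ‖w‖ ^ 2) ≤ ‖w‖ ^ 2 * m3 := by linarith
    exact le_of_mul_le_mul_left h7 h0

/-- [SPEC]. -/
theorem spec (hK : Fintype.card K = 8) (x z : Fin 3 → Multiplicative K →* G)
    (hzx : ∀ i a c, Commute (z i c) (x i a))
    (_hzy : ∀ i b c, Commute (z i c) (x (i + 1) b))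
    (hxy : ∀ i (a b : K), x i (.ofAdd a) * x (i + 1) (.ofAdd b)
      = x (i + 1) (.ofAdd b) * x i (.ofAdd a) * z i (.ofAdd (a * b)))
    (hgen : Subgroup.closure (⋃ i, Set.range (x i)) = ⊤) (v : H) (d : ℝ)
    (hv : ∀ i a, ‖pi (x i a) v - v‖ ≤ d) :
    ∃ w, (∀ g, pi g w = w) ∧ ‖v - w‖ ≤ 11 * d := by
  set D := lap pi x with hD
  have hd : 0 ≤ d := (norm_nonneg _).trans (hv 0 1)
  -- kernel = fixed vectors
  have hker : ∀ w : H, D w = 0 → ∀ g, pi g w = w := by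
    intro w hw
    have h1 : ∑ i, ‖comp pi (x i) w‖ ^ 2 = 0 := by
      rw [← lap_re, ← hD, hw, inner_zero_left]; rfl
    have h2 : ∀ i, comp pi (x i) w = 0 := by
      intro i
      have := (Finset.sum_eq_zero_iff_of_nonneg (fun i _ => sq_nonneg _)).1 h1 i (Finset.mem_univ i)
      exact norm_eq_zero.1 (pow_eq_zero_iff two_ne_zero |>.1 this)
    have h3 : ∀ i a, pi (x i a) w = w := by
      intro i a
      have h4 : w = avg pi (x i) w := sub_eq_zero.1 (h2 i)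
      rw [h4]
      exact avg_fixed pi (x i) a w
    let S : Subgroup G :=
      { carrier := {g | pi g w = w}
        mul_mem' := fun {g h} hg hh => by
          change pi (g * h) w = w
          rw [pi_mul, hh, hg]
        one_mem' := by change pi 1 w = w; rw [map_one]; rfl
        inv_mem' := fun {g} hg => by
          change pi g⁻¹ w = w
          have : pi (g⁻¹ * g) w = w := by rw [inv_mul_cancel, map_one]; rfl
          rw [pi_mul, hg] at this
          exact this }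
    have h5 : (⊤ : Subgroup G) ≤ S := by
      rw [← hgen, Subgroup.closure_le]
      intro g hg
      obtain ⟨i, hi⟩ := Set.mem_iUnion.1 hg
      obtain ⟨a, rfl⟩ := hi
      exact h3 i a
    exact fun g => h5 (Subgroup.mem_top g)
  -- projection to the kernel
  set F : Submodule ℂ H := D.ker with hF
  have hFc : IsClosed (F : Set H) := D.isClosed_ker
  have : CompleteSpace F := hFc.completeSpace_coe
  set w0 := F.starProjection v with hw0
  have hw0F : w0 ∈ F := F.starProjection_apply_mem v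
  have hw0D : D w0 = 0 := hw0F
  have hperp : v - w0 ∈ Fᗮ := F.sub_starProjection_mem_orthogonal v
  set R : Submodule ℂ H := D.range with hR
  have hRF : Rᗮ ≤ F := by
    intro u hu
    have h1 : ⟪D (D u), u⟫_ℂ = 0 := (Submodule.mem_orthogonal R u).1 hu _ ⟨D u, rfl⟩
    have h2 : ⟪D u, D u⟫_ℂ = 0 := by
      rw [← h1]
      exact (lap_symm pi x (D u) u).symm
    exact inner_self_eq_zero.1 h2
  have hcl : v - w0 ∈ R.topologicalClosure := by
    rw [← Submodule.orthogonal_orthogonal_eq_closure]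
    exact Submodule.orthogonal_le hRF hperp
  -- the inequality on the closure
  have hclosed : IsClosed {w : H | (2928 / 10000 : ℝ) * ‖w‖ ^ 2 ≤ (⟪D w, w⟫_ℂ).re} := by
    refine isClosed_le (by fun_prop) ?_
    exact Complex.continuous_re.comp (D.continuous.inner continuous_id)
  have hsub : (R : Set H) ⊆ {w : H | (2928 / 10000 : ℝ) * ‖w‖ ^ 2 ≤ (⟪D w, w⟫_ℂ).re} := by
    rintro _ ⟨u, rfl⟩
    exact lap_range pi x z hK hzx hxy u
  have hineq : (2928 / 10000 : ℝ) * ‖v - w0‖ ^ 2 ≤ (⟪D (v - w0), v - w0⟫_ℂ).re :=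
    closure_minimal hsub hclosed hcl
  have hDv : D (v - w0) = D v := by rw [map_sub, hw0D, sub_zero]
  have hDn : ‖D v‖ ≤ 3 * d := by
    rw [hD, lap_apply]
    refine (norm_sum_le _ _).trans ?_
    refine (Finset.sum_le_sum fun i _ => norm_sub_avg_le pi (x i) (hv i)).trans ?_
    simp
  refine ⟨w0, hker w0 hw0D, ?_⟩
  have h1 : (⟪D (v - w0), v - w0⟫_ℂ).re ≤ 3 * d * ‖v - w0‖ := by
    refine (Complex.re_le_norm _).trans ((norm_inner_le_norm _ _).trans ?_)
    rw [hDv]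
    exact mul_le_mul_of_nonneg_right hDn (norm_nonneg _)
  rcases eq_or_lt_of_le (norm_nonneg (v - w0)) with h0 | h0
  · rw [← h0]; positivity
  · have h2 : ‖v - w0‖ * ((2928 / 10000 : ℝ) * ‖v - w0‖) ≤ ‖v - w0‖ * (3 * d) := by
      nlinarith
    have h3 := le_of_mul_le_mul_left h2 h0
    nlinarith

end Main

end

end Vale.Agent.P092.Gen
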