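import Vale.Agent.P092.Gen.VNAlg

/-!
# The group von Neumann algebras of `G₀` and `G₁` coincide
-/

open Polynomial InnerProductSpace

namespace Vale.Agent.P092.Gen

set_option linter.unusedSectionVars false

noncomputable section

section general

variable {G H : Type*} [Group G] [NormedAddCommGroup H] [InnerProductSpace ℂ H] [CompleteSpace H]

lemma uu_basis (b : HilbertBasis G ℂ H) (g h : G) : uu b g (b h) = b (g * h) :=
  Classical.choose_spec (exists_left b g) h

lemma mem_centralizer_span {S : Set (H →L[ℂ] H)} {y x : H →L[ℂ] H}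
    (hy : y ∈ Set.centralizer S) (hx : x ∈ Submodule.span ℂ S) : x * y = y * x := by
  induction hx using Submodule.span_induction with
  | mem x hx => exact hy x hx
  | zero => rw [zero_mul, mul_zero]
  | add a b _ _ ha hb => rw [add_mul, mul_add, ha, hb]
  | smul c a _ ha => rw [smul_mul_assoc, mul_smul_comm, ha]

/-- A continuous linear map is determined by its values on a Hilbert basis. -/
lemma clm_ext_basis {ι H' : Type*} [NormedAddCommGroup H'] [InnerProductSpace ℂ H']
    (b : HilbertBasis ι ℂ H) {S T : H →L[ℂ] H'} (h : ∀ i, S (b i) = T (b i)) : S = T := by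
  apply ContinuousLinearMap.ext_on (s := Set.range b)
  · rw [dense_iff_closure_eq, ← Submodule.topologicalClosure_coe, b.dense_span]; rfl
  · rintro _ ⟨i, rfl⟩; exact h i

end general

section conj

variable {G₀ G₁ H₀ H₁ : Type*} [Group G₀] [Group G₁]
  [NormedAddCommGroup H₀] [InnerProductSpace ℂ H₀] [CompleteSpace H₀]
  [NormedAddCommGroup H₁] [InnerProductSpace ℂ H₁] [CompleteSpace H₁]

lemma conj_fun (W : H₀ ≃ₗᵢ[ℂ] H₁) :
    (fun x : H₀ →L[ℂ] H₀ => ((W : H₀ →L[ℂ] H₁).comp x).comp (W.symm : H₁ →L[ℂ] H₀)) =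
      W.conjStarAlgEquiv := by
  funext x
  ext y
  rfl

lemma conj_mem_LGrp (b₀ : HilbertBasis G₀ ℂ H₀) (b₁ : HilbertBasis G₁ ℂ H₁) (W : H₀ ≃ₗᵢ[ℂ] H₁)
    (h : ∀ g, W.conjStarAlgEquiv (uu b₀ g) ∈ Submodule.span ℂ (Set.range (uu b₁)))
    {x : H₀ →L[ℂ] H₀} (hx : x ∈ LGrp b₀) : W.conjStarAlgEquiv x ∈ LGrp b₁ := by
  intro y hy
  have h1 : W.conjStarAlgEquiv.symm y ∈ Set.centralizer (Set.range (uu b₀)) := by
    rintro _ ⟨g, rfl⟩
    have h2 := mem_centralizer_span hy (h g)
    apply EquivLike.injective W.conjStarAlgEquiv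
    rw [map_mul, map_mul, StarAlgEquiv.apply_symm_apply]
    exact h2
  have h3 := hx _ h1
  have h4 := congrArg W.conjStarAlgEquiv h3
  rw [map_mul, map_mul, StarAlgEquiv.apply_symm_apply] at h4
  exact h4

lemma image_LGrp (b₀ : HilbertBasis G₀ ℂ H₀) (b₁ : HilbertBasis G₁ ℂ H₁) (W : H₀ ≃ₗᵢ[ℂ] H₁)
    (h : ∀ g, W.conjStarAlgEquiv (uu b₀ g) ∈ Submodule.span ℂ (Set.range (uu b₁)))
    (h' : ∀ g, ∃ z ∈ Submodule.span ℂ (Set.range (uu b₀)), W.conjStarAlgEquiv z = uu b₁ g) :
    W.conjStarAlgEquiv '' LGrp b₀ = LGrp b₁ := by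
  apply Set.Subset.antisymm
  · rintro _ ⟨x, hx, rfl⟩
    exact conj_mem_LGrp b₀ b₁ W h hx
  · intro y hy
    refine ⟨W.conjStarAlgEquiv.symm y, ?_, StarAlgEquiv.apply_symm_apply _ _⟩
    intro z hz
    have h1 : W.conjStarAlgEquiv z ∈ Set.centralizer (Set.range (uu b₁)) := by
      rintro _ ⟨g, rfl⟩
      obtain ⟨w, hw, hw'⟩ := h' g
      rw [← hw', ← map_mul, ← map_mul, mem_centralizer_span hz hw]
    have h2 := hy _ h1
    apply EquivLike.injective W.conjStarAlgEquiv
    rw [map_mul, map_mul, StarAlgEquiv.apply_symm_apply]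
    exact h2

end conj

section main

/-- The element `(a, γ)`. -/
def mk' (s : Bool) (a : A s) (g : Gam) : GG s := ⟨Multiplicative.ofAdd a, g⟩

lemma mk'_mul (s : Bool) (a b : A s) (g h : Gam) :
    mk' s a g * mk' s b h = mk' s (a + sm s g.1 b) (g * h) := rfl

lemma mk'_one (s : Bool) : mk' s 0 1 = 1 := rfl

lemma mk'_surj (s : Bool) (x : GG s) : ∃ a g, x = mk' s a g := ⟨x.left.toAdd, x.right, rfl⟩

lemma mk'_inj (s : Bool) {a b : A s} {g h : Gam} (e : mk' s a g = mk' s b h) : a = b ∧ g = h :=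
  ⟨congrArg (fun x : GG s => x.left.toAdd) e, congrArg (fun x : GG s => x.right) e⟩

variable {s : Bool} {H : Type*} [NormedAddCommGroup H] [InnerProductSpace ℂ H] [CompleteSpace H]
  (b : HilbertBasis (GG s) ℂ H)

/-- `F ↦ ∑ F(c) b_(c, γ)`. -/
def bb (g : Gam) : (A s →₀ ℂ) →ₗ[ℂ] H := Finsupp.linearCombination ℂ (fun c => b (mk' s c g))

lemma bb_single (g : Gam) (c : A s) (r : ℂ) :
    bb b g (Finsupp.single c r) = r • b (mk' s c g) := Finsupp.linearCombination_single _ _ _

/-- `F ↦ ∑ F(c) u_(c, γ)`. -/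
def op (g : Gam) : (A s →₀ ℂ) →ₗ[ℂ] (H →L[ℂ] H) :=
  Finsupp.linearCombination ℂ (fun c => uu b (mk' s c g))

lemma op_single (g : Gam) (c : A s) (r : ℂ) :
    op b g (Finsupp.single c r) = r • uu b (mk' s c g) := Finsupp.linearCombination_single _ _ _

lemma op_mem (g : Gam) (F : A s →₀ ℂ) : op b g F ∈ Submodule.span ℂ (Set.range (uu b)) := by
  induction F using Finsupp.induction_linear with
  | zero => rw [map_zero]; exact zero_mem _
  | add F1 F2 h1 h2 => rw [map_add]; exact add_mem h1 h2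
  | single a r =>
    rw [op_single]; exact Submodule.smul_mem _ _ (Submodule.subset_span ⟨_, rfl⟩)

lemma op_bb (g h : Gam) (F G : A s →₀ ℂ) :
    op b g F (bb b h G) = bb b (g * h) (MM s g.1 F G) := by
  induction F using Finsupp.induction_linear with
  | zero => simp only [map_zero, LinearMap.zero_apply, zero_apply]
  | add F1 F2 h1 h2 =>
    simp only [map_add, LinearMap.add_apply, add_apply, h1, h2]
  | single a r =>
    induction G using Finsupp.induction_linear with
    | zero => simp only [map_zero]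
    | add G1 G2 h1 h2 => simp only [map_add, h1, h2]
    | single c t =>
      rw [op_single, bb_single, MM_single, bb_single, map_smul]
      change t • r • uu b (mk' s a g) (b (mk' s c h)) = _
      rw [uu_basis, mk'_mul, smul_smul, mul_comm t r]

lemma inner_bb_eq (g : Gam) (F G : A s →₀ ℂ) :
    inner ℂ (bb b g F) (bb b g G) = F.sum fun c r => starRingEnd ℂ r * G c := by
  have ho : Orthonormal ℂ (fun c : A s => b (mk' s c g)) :=
    b.orthonormal.comp _ (fun a c e => (mk'_inj s e).1)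
  exact ho.inner_finsupp_eq_sum_left F G

lemma inner_bb_ne {g h : Gam} (hgh : g ≠ h) (F G : A s →₀ ℂ) :
    inner ℂ (bb b g F) (bb b h G) = 0 := by
  induction F using Finsupp.induction_linear with
  | zero => rw [map_zero, inner_zero_left]
  | add F1 F2 h1 h2 => rw [map_add, inner_add_left, h1, h2, add_zero]
  | single a r =>
    induction G using Finsupp.induction_linear with
    | zero => rw [map_zero, inner_zero_right]
    | add G1 G2 h1 h2 => rw [map_add, inner_add_right, h1, h2, add_zero]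
    | single c t =>
      rw [bb_single, bb_single, inner_smul_left, inner_smul_right,
        b.orthonormal.2 (fun e => hgh (mk'_inj s e).2), mul_zero, mul_zero]

end main

section final

variable {H₀ H₁ : Type*}
  [NormedAddCommGroup H₀] [InnerProductSpace ℂ H₀] [CompleteSpace H₀]
  [NormedAddCommGroup H₁] [InnerProductSpace ℂ H₁] [CompleteSpace H₁]

/-- The new orthonormal basis. -/
def vv (b₁ : HilbertBasis (GG true) ℂ H₁) (x : GG false) : H₁ :=
  bb b₁ x.right (Ph false true (Finsupp.single x.left.toAdd 1))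

lemma vv_mk (b₁ : HilbertBasis (GG true) ℂ H₁) (a : A false) (g : Gam) :
    vv b₁ (mk' false a g) = bb b₁ g (Ph false true (Finsupp.single a 1)) := rfl

lemma vv_orthonormal (b₁ : HilbertBasis (GG true) ℂ H₁) : Orthonormal ℂ (vv b₁) := by
  classical
  rw [orthonormal_iff_ite]
  intro x y
  obtain ⟨a, g, rfl⟩ := mk'_surj false x
  obtain ⟨c, h, rfl⟩ := mk'_surj false y
  rw [vv_mk, vv_mk]
  by_cases hgh : g = h
  · subst hgh
    rw [inner_bb_eq, Ph_ip]
    by_cases hac : a = c
    · subst hac; simp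
    · rw [if_neg hac, if_neg]
      intro e; exact hac (mk'_inj false e).1
  · rw [inner_bb_ne b₁ hgh, if_neg]
    intro e; exact hgh (mk'_inj false e).2

lemma bb_Ph_mem (b₁ : HilbertBasis (GG true) ℂ H₁) (g : Gam) (F : A false →₀ ℂ) :
    bb b₁ g (Ph false true F) ∈ Submodule.span ℂ (Set.range (vv b₁)) := by
  induction F using Finsupp.induction_linear with
  | zero => rw [map_zero, map_zero]; exact zero_mem _
  | add F1 F2 h1 h2 => rw [map_add, map_add]; exact add_mem h1 h2
  | single a r =>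
    have : Finsupp.single a r = r • Finsupp.single a (1 : ℂ) := by
      rw [Finsupp.smul_single, smul_eq_mul, mul_one]
    rw [this, map_smul, map_smul, ← vv_mk]
    exact Submodule.smul_mem _ _ (Submodule.subset_span ⟨_, rfl⟩)

lemma vv_dense (b₁ : HilbertBasis (GG true) ℂ H₁) :
    ⊤ ≤ (Submodule.span ℂ (Set.range (vv b₁))).topologicalClosure := by
  rw [← b₁.dense_span]
  apply Submodule.topologicalClosure_mono
  rw [Submodule.span_le]
  rintro _ ⟨x, rfl⟩
  obtain ⟨c, g, rfl⟩ := mk'_surj true x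
  have h := bb_Ph_mem b₁ g (Ph true false (Finsupp.single c 1))
  rw [Ph_Ph, bb_single, one_smul] at h
  exact h

/-- The unitary with `W b₀(x) = vv(x)`. -/
def WW (b₀ : HilbertBasis (GG false) ℂ H₀) (b₁ : HilbertBasis (GG true) ℂ H₁) : H₀ ≃ₗᵢ[ℂ] H₁ :=
  b₀.repr.trans (HilbertBasis.mk (vv_orthonormal b₁) (vv_dense b₁)).repr.symm

lemma WW_basis (b₀ : HilbertBasis (GG false) ℂ H₀) (b₁ : HilbertBasis (GG true) ℂ H₁)
    (x : GG false) : WW b₀ b₁ (b₀ x) = vv b₁ x := by
  classical
  unfold WW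
  rw [LinearIsometryEquiv.trans_apply, HilbertBasis.repr_self, HilbertBasis.repr_symm_single,
    HilbertBasis.coe_mk]

lemma WW_bb (b₀ : HilbertBasis (GG false) ℂ H₀) (b₁ : HilbertBasis (GG true) ℂ H₁)
    (g : Gam) (F : A false →₀ ℂ) : WW b₀ b₁ (bb b₀ g F) = bb b₁ g (Ph false true F) := by
  induction F using Finsupp.induction_linear with
  | zero => simp only [map_zero]
  | add F1 F2 h1 h2 => simp only [map_add, h1, h2]
  | single a r =>
    have : Finsupp.single a r = r • Finsupp.single a (1 : ℂ) := by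
      rw [Finsupp.smul_single, smul_eq_mul, mul_one]
    rw [this, map_smul, map_smul, map_smul, map_smul, bb_single, one_smul, WW_basis, vv_mk]

lemma conj_op (b₀ : HilbertBasis (GG false) ℂ H₀) (b₁ : HilbertBasis (GG true) ℂ H₁)
    (g : Gam) (F : A false →₀ ℂ) :
    (WW b₀ b₁).conjStarAlgEquiv (op b₀ g F) = op b₁ g (Ph false true F) := by
  apply clm_ext_basis (HilbertBasis.mk (vv_orthonormal b₁) (vv_dense b₁))
  intro x
  obtain ⟨a, h, rfl⟩ := mk'_surj false x
  rw [HilbertBasis.coe_mk, LinearIsometryEquiv.conjStarAlgEquiv_apply_apply]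
  have h1 : (WW b₀ b₁).symm (vv b₁ (mk' false a h)) = b₀ (mk' false a h) := by
    rw [← WW_basis b₀ b₁, LinearIsometryEquiv.symm_apply_apply]
  rw [h1]
  have h2 : b₀ (mk' false a h) = bb b₀ h (Finsupp.single a 1) := by rw [bb_single, one_smul]
  rw [h2, op_bb, WW_bb, Ph_MM, vv_mk, op_bb]

/-- The group von Neumann algebras of `G₀` and `G₁` are spatially isomorphic: for all realizations
of the left regular representations on Hilbert spaces with orthonormal bases indexed by the
groups there is a unitary which conjugates one algebra onto the other. -/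
theorem vn (b₀ : HilbertBasis (GG false) ℂ H₀) (b₁ : HilbertBasis (GG true) ℂ H₁) :
    ∃ W : H₀ ≃ₗᵢ[ℂ] H₁, W.conjStarAlgEquiv '' LGrp b₀ = LGrp b₁ := by
  refine ⟨WW b₀ b₁, image_LGrp b₀ b₁ _ ?_ ?_⟩
  · intro x
    obtain ⟨a, g, rfl⟩ := mk'_surj false x
    have h : uu b₀ (mk' false a g) = op b₀ g (Finsupp.single a 1) := by
      rw [op_single, one_smul]
    rw [h, conj_op]
    exact op_mem b₁ g _
  · intro x
    obtain ⟨c, g, rfl⟩ := mk'_surj true x
    refine ⟨op b₀ g (Ph true false (Finsupp.single c 1)), op_mem b₀ g _, ?_⟩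
    rw [conj_op, Ph_Ph, op_single, one_smul]

lemma Ph_single_zero : Ph false true (Finsupp.single 0 1) = Finsupp.single 0 1 := by
  change LL true (EE false (Finsupp.single 0 1)) = _
  have h : EE false (Finsupp.single 0 1) = EE true (Finsupp.single 0 1) := by
    rw [EE_single, EE_single, ZeroMemClass.coe_zero, ZeroMemClass.coe_zero]
  rw [h, LL_EE]

lemma image_span (b₀ : HilbertBasis (GG false) ℂ H₀) (b₁ : HilbertBasis (GG true) ℂ H₁) :
    (WW b₀ b₁).conjStarAlgEquiv '' (Submodule.span ℂ (Set.range (uu b₀)) : Set (H₀ →L[ℂ] H₀)) =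
      (Submodule.span ℂ (Set.range (uu b₁)) : Set (H₁ →L[ℂ] H₁)) := by
  apply Set.Subset.antisymm
  · rintro _ ⟨x, hx, rfl⟩
    rw [SetLike.mem_coe] at hx ⊢
    induction hx using Submodule.span_induction with
    | mem x hx =>
      obtain ⟨x, rfl⟩ := hx
      obtain ⟨a, g, rfl⟩ := mk'_surj false x
      have h : uu b₀ (mk' false a g) = op b₀ g (Finsupp.single a 1) := by
        rw [op_single, one_smul]
      rw [h, conj_op]
      exact op_mem b₁ g _
    | zero => rw [map_zero]; exact zero_mem _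
    | add a b _ _ ha hb => rw [map_add]; exact add_mem ha hb
    | smul c a _ ha => rw [map_smul]; exact Submodule.smul_mem _ _ ha
  · intro y hy
    rw [SetLike.mem_coe] at hy
    induction hy using Submodule.span_induction with
    | mem x hx =>
      obtain ⟨x, rfl⟩ := hx
      obtain ⟨c, g, rfl⟩ := mk'_surj true x
      refine ⟨op b₀ g (Ph true false (Finsupp.single c 1)), op_mem b₀ g _, ?_⟩
      rw [conj_op, Ph_Ph, op_single, one_smul]
    | zero => exact ⟨0, zero_mem _, map_zero _⟩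
    | add a b _ _ ha hb =>
      obtain ⟨a', ha', rfl⟩ := ha
      obtain ⟨b', hb', rfl⟩ := hb
      exact ⟨a' + b', add_mem ha' hb', map_add _ _ _⟩
    | smul c a _ ha =>
      obtain ⟨a', ha', rfl⟩ := ha
      exact ⟨c • a', Submodule.smul_mem _ _ ha', map_smul _ _ _⟩

/-- One unitary `W` maps the vacuum vector to the vacuum vector and conjugates the span of the
left regular unitaries (the complex group algebra) of `G₀` onto that of `G₁`, and the group von
Neumann algebra `L(G₀)` onto `L(G₁)`. -/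
theorem vn_full (b₀ : HilbertBasis (GG false) ℂ H₀) (b₁ : HilbertBasis (GG true) ℂ H₁) :
    ∃ W : H₀ ≃ₗᵢ[ℂ] H₁, W (b₀ 1) = b₁ 1 ∧
      (fun x : H₀ →L[ℂ] H₀ => ((W : H₀ →L[ℂ] H₁).comp x).comp (W.symm : H₁ →L[ℂ] H₀)) ''
        (Submodule.span ℂ (Set.range (uu b₀)) : Set (H₀ →L[ℂ] H₀)) =
        (Submodule.span ℂ (Set.range (uu b₁)) : Set (H₁ →L[ℂ] H₁)) ∧
      (fun x : H₀ →L[ℂ] H₀ => ((W : H₀ →L[ℂ] H₁).comp x).comp (W.symm : H₁ →L[ℂ] H₀)) ''
        LGrp b₀ = LGrp b₁ := by
  refine ⟨WW b₀ b₁, ?_, ?_, ?_⟩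
  · rw [← mk'_one false, ← mk'_one true, WW_basis, vv_mk, Ph_single_zero, bb_single, one_smul]
  · rw [conj_fun]; exact image_span b₀ b₁
  · rw [conj_fun]
    refine image_LGrp b₀ b₁ _ ?_ ?_
    · intro x
      obtain ⟨a, g, rfl⟩ := mk'_surj false x
      have h : uu b₀ (mk' false a g) = op b₀ g (Finsupp.single a 1) := by
        rw [op_single, one_smul]
      rw [h, conj_op]
      exact op_mem b₁ g _
    · intro x
      obtain ⟨c, g, rfl⟩ := mk'_surj true x
      refine ⟨op b₀ g (Ph true false (Finsupp.single c 1)), op_mem b₀ g _, ?_⟩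
      rw [conj_op, Ph_Ph, op_single, one_smul]

end final

end

end Vale.Agent.P092.Gen
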