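import Vale.Agent.P092.Gen.VN

/-!
# The unitary also carries the group ring and the trace vector
-/

namespace Vale.Agent.P092.Gen

noncomputable section

variable {H₀ H₁ : Type*}
  [NormedAddCommGroup H₀] [InnerProductSpace ℂ H₀] [CompleteSpace H₀]
  [NormedAddCommGroup H₁] [InnerProductSpace ℂ H₁] [CompleteSpace H₁]

lemma Ph_one (s t : Bool) : Ph s t (Finsupp.single 0 1) = Finsupp.single 0 1 := by
  change LL t (EE s (Finsupp.single 0 1)) = _
  have h : ∀ s, EE s (Finsupp.single 0 1) = 1 := by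
    intro s
    rw [EE_single, one_smul]; exact ec_zero
  rw [h s, ← h t, LL_EE]

lemma WW_one (b₀ : HilbertBasis (GG false) ℂ H₀) (b₁ : HilbertBasis (GG true) ℂ H₁) :
    WW b₀ b₁ (b₀ 1) = b₁ 1 := by
  rw [WW_basis]
  have h : (1 : GG false) = mk' false 0 1 := rfl
  rw [h, vv_mk, Ph_one, bb_single, one_smul]
  rfl

lemma conj_span (b₀ : HilbertBasis (GG false) ℂ H₀) (b₁ : HilbertBasis (GG true) ℂ H₁) :
    (WW b₀ b₁).conjStarAlgEquiv '' (Submodule.span ℂ (Set.range (uu b₀))) =
      Submodule.span ℂ (Set.range (uu b₁)) := by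
  apply Set.Subset.antisymm
  · intro y hy
    obtain ⟨x, hx, rfl⟩ := hy
    have hx' : x ∈ Submodule.span ℂ (Set.range (uu b₀)) := hx
    clear hx
    change (WW b₀ b₁).conjStarAlgEquiv x ∈ Submodule.span ℂ (Set.range (uu b₁))
    induction hx' using Submodule.span_induction with
    | mem x hx =>
      obtain ⟨g, rfl⟩ := hx
      obtain ⟨a, g, rfl⟩ := mk'_surj false g
      have h : uu b₀ (mk' false a g) = op b₀ g (Finsupp.single a 1) := by
        rw [op_single, one_smul]
      rw [h, conj_op]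
      exact op_mem b₁ g _
    | zero => rw [map_zero]; exact zero_mem _
    | add a b ha hb h1 h2 => rw [map_add]; exact add_mem h1 h2
    | smul c a ha h1 => rw [map_smul]; exact Submodule.smul_mem _ _ h1
  · intro y hy
    have hy' : y ∈ Submodule.span ℂ (Set.range (uu b₁)) := hy
    clear hy
    have key : ∃ x ∈ Submodule.span ℂ (Set.range (uu b₀)),
        (WW b₀ b₁).conjStarAlgEquiv x = y := by
      induction hy' using Submodule.span_induction with
      | mem x hx =>
        obtain ⟨g, rfl⟩ := hx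
        obtain ⟨c, g, rfl⟩ := mk'_surj true g
        refine ⟨op b₀ g (Ph true false (Finsupp.single c 1)), op_mem b₀ g _, ?_⟩
        rw [conj_op, Ph_Ph, op_single, one_smul]
      | zero => exact ⟨0, zero_mem _, map_zero _⟩
      | add a b ha hb h1 h2 =>
        obtain ⟨x, hx, rfl⟩ := h1
        obtain ⟨z, hz, rfl⟩ := h2
        exact ⟨x + z, add_mem hx hz, map_add _ _ _⟩
      | smul c a ha h1 =>
        obtain ⟨x, hx, rfl⟩ := h1
        exact ⟨c • x, Submodule.smul_mem _ _ hx, map_smul _ _ _⟩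
    obtain ⟨x, hx, h⟩ := key
    exact ⟨x, hx, h⟩

/-- One unitary carries the trace vector, the complex group ring and the von Neumann algebra of
`G₀` onto those of `G₁`. -/
theorem vn' (b₀ : HilbertBasis (GG false) ℂ H₀) (b₁ : HilbertBasis (GG true) ℂ H₁) :
    ∃ W : H₀ ≃ₗᵢ[ℂ] H₁, W (b₀ 1) = b₁ 1 ∧
      W.conjStarAlgEquiv '' (Submodule.span ℂ (Set.range (uu b₀))) =
        Submodule.span ℂ (Set.range (uu b₁)) ∧
      W.conjStarAlgEquiv '' LGrp b₀ = LGrp b₁ := by
  refine ⟨WW b₀ b₁, WW_one b₀ b₁, conj_span b₀ b₁, image_LGrp b₀ b₁ _ ?_ ?_⟩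
  · intro x
    obtain ⟨a, g, rfl⟩ := mk'_surj false x
    have h : uu b₀ (mk' false a g) = op b₀ g (Finsupp.single a 1) := by
      rw [op_single, one_smul]
    rw [h, conj_op]
    exact op_mem b₁ g _
  · intro x
    obtain ⟨c, g, rfl⟩ := mk'_surj true x
    refine ⟨op b₀ g (Ph true false (Finsupp.single c 1)), op_mem b₀ g _, ?_⟩
    rw [conj_op, Ph_Ph, op_single, one_smul]

end

end Vale.Agent.P092.Gen
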