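import Vale.Agent.P092.Gen.Defs

/-!
# The characters of the two group laws span the same algebra of functions
-/

open Polynomial

namespace Vale.Agent.P092.Gen

noncomputable section

/-- `z ↦ i^z` on `ZMod 4`. -/
def iz (z : ZMod 4) : ℂ := Complex.I ^ z.val

lemma iz_zero : iz 0 = 1 := by simp [iz]

lemma iz_add (a b : ZMod 4) : iz (a + b) = iz a * iz b := by
  unfold iz
  rw [ZMod.val_add, ← pow_add]
  exact (Complex.I_pow_eq_pow_mod _).symm

lemma iz_ne_zero (a : ZMod 4) : iz a ≠ 0 := pow_ne_zero _ Complex.I_ne_zero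

lemma iz_one : iz 1 = Complex.I := by
  change Complex.I ^ (1 : ZMod 4).val = Complex.I
  rw [show (1 : ZMod 4).val = 1 from rfl, pow_one]

lemma iz_two : iz 2 = -1 := by
  change Complex.I ^ (2 : ZMod 4).val = -1
  rw [show (2 : ZMod 4).val = 2 from rfl, Complex.I_sq]

lemma iz_three : iz 3 = -Complex.I := by
  change Complex.I ^ (3 : ZMod 4).val = -Complex.I
  rw [show (3 : ZMod 4).val = 3 from rfl, Complex.I_pow_three]

lemma zmod4_cases (a : ZMod 4) : a = 0 ∨ a = 1 ∨ a = 2 ∨ a = 3 := by
  revert a; decide

lemma iz_eq_one {a : ZMod 4} (h : iz a = 1) : a = 0 := by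
  rcases zmod4_cases a with rfl | rfl | rfl | rfl
  · rfl
  · rw [iz_one] at h
    have := congrArg Complex.im h
    simp at this
  · rw [iz_two] at h
    have := congrArg Complex.re h
    norm_num at this
  · rw [iz_three] at h
    have := congrArg Complex.im h
    simp at this

lemma iz_inj {a b : ZMod 4} (h : iz a = iz b) : a = b := by
  have h1 : iz (a - b) * iz b = 1 * iz b := by
    rw [← iz_add, sub_add_cancel, h, one_mul]
  have h2 := mul_right_cancel₀ (iz_ne_zero b) h1
  exact sub_eq_zero.mp (iz_eq_one h2)

lemma conj_iz (a : ZMod 4) : starRingEnd ℂ (iz a) = iz (-a) := by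
  rcases zmod4_cases a with rfl | rfl | rfl | rfl
  · simp [iz_zero]
  · rw [show (-1 : ZMod 4) = 3 from rfl, iz_one, iz_three, Complex.conj_I]
  · rw [show (-2 : ZMod 4) = 2 from rfl, iz_two]; simp
  · rw [show (-3 : ZMod 4) = 1 from rfl, iz_one, iz_three]; simp

/-- The two group laws on `Pt`. -/
def Pt.add' (s : Bool) (x y : Pt) : Pt where
  f m := x.f m + y.f m
  q m := x.q m + y.q m + (if s then x.f m * y.f m else 0)
  hf a b := by rw [x.hf, y.hf]; ring
  hq a b c := by
    rw [x.hq, y.hq, x.hf (a + b) c, y.hf (a + b) c, x.hf a b, y.hf a b, x.hf a c, y.hf a c,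
      x.hf b c, y.hf b c]
    cases s
    · simp only [Bool.false_eq_true, if_false]; ring
    · simp only [if_true]
      generalize x.f a = a1; generalize x.f b = a2; generalize x.f c = a3
      generalize y.f a = b1; generalize y.f b = b2; generalize y.f c = b3
      have key : (a1 + a2 + a3) * (b1 + b2 + b3) = (a1 + a2) * (b1 + b2) + (a1 + a3) * (b1 + b3)
          + (a2 + a3) * (b2 + b3) + a1 * b1 + a2 * b2 + a3 * b3 := by
        revert a1 a2 a3 b1 b2 b3; decide
      rw [key]; ring

/-- The neutral element. -/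
def Pt.zero' : Pt where
  f _ := 0
  q _ := 0
  hf _ _ := by ring
  hq _ _ _ := by ring

/-- `Pt` with the group law `s`. -/
def PtE (_ : Bool) : Type := Pt

instance (s : Bool) : MulOneClass (PtE s) where
  mul x y := Pt.add' s x y
  one := Pt.zero'
  one_mul x := by
    apply Pt.ext <;> funext m
    · change 0 + Pt.f x m = Pt.f x m; ring
    · change 0 + Pt.q x m + (if s then 0 * Pt.f x m else 0) = Pt.q x m
      cases s <;> simp
  mul_one x := by
    apply Pt.ext <;> funext m
    · change Pt.f x m + 0 = Pt.f x m; ring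
    · change Pt.q x m + 0 + (if s then Pt.f x m * 0 else 0) = Pt.q x m
      cases s <;> simp

lemma A_zero' (s : Bool) {a : Pt → ZMod 4} (ha : a ∈ A s) : a Pt.zero' = 0 := by
  unfold A at ha
  induction ha using AddSubgroup.closure_induction with
  | mem a ha =>
    rcases ha with ⟨m, rfl⟩ | ⟨m, rfl⟩
    · cases s <;> simp [th, Pt.zero', lift_zero]
    · simp [chi, Pt.zero', lift_zero]
  | zero => rfl
  | add a b _ _ h1 h2 => rw [Pi.add_apply, h1, h2, add_zero]
  | neg a _ h1 => rw [Pi.neg_apply, h1, neg_zero]

lemma A_add' (s : Bool) {a : Pt → ZMod 4} (ha : a ∈ A s) (x y : Pt) :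
    a (x.add' s y) = a x + a y := by
  unfold A at ha
  induction ha using AddSubgroup.closure_induction with
  | mem a ha =>
    rcases ha with ⟨m, rfl⟩ | ⟨m, rfl⟩
    · cases s
      · simp only [th, Pt.add', Bool.false_eq_true, if_false]
        generalize x.q m = a; generalize y.q m = b
        revert a b; decide
      · simp only [th, Pt.add', if_true]
        generalize x.q m = a; generalize y.q m = b
        generalize x.f m = c; generalize y.f m = d
        revert a b c d; decide
    · simp only [chi, Pt.add']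
      generalize x.f m = c; generalize y.f m = d
      revert c d; decide
  | zero => simp
  | add a b _ _ h1 h2 => simp only [Pi.add_apply, h1, h2]; abel
  | neg a _ h1 => simp only [Pi.neg_apply, h1]; abel

/-- The character `x ↦ i^{a(x)}`. -/
def ec (a : Pt → ZMod 4) : Pt → ℂ := fun x => iz (a x)

lemma ec_add (a b : Pt → ZMod 4) : ec (a + b) = ec a * ec b := by
  funext x; exact iz_add _ _

lemma ec_zero : ec 0 = 1 := by funext x; exact iz_zero

/-- The character as a monoid homomorphism. -/
def chh (s : Bool) (a : A s) : PtE s →* ℂ where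
  toFun x := iz (a.1 x)
  map_one' := by
    change iz (a.1 Pt.zero') = 1
    rw [A_zero' s a.2, iz_zero]
  map_mul' x y := (congrArg iz (A_add' s a.2 x y)).trans (iz_add _ _)

lemma chh_inj (s : Bool) : Function.Injective (chh s) := by
  intro a b h
  apply Subtype.ext
  funext x
  have := DFunLike.congr_fun h (show PtE s from x)
  exact iz_inj this

lemma linInd (s : Bool) : LinearIndependent ℂ (fun a : A s => ec a.1) :=
  (linearIndependent_monoidHom (PtE s) ℂ).comp (chh s) (chh_inj s)

/-- Expansions in characters. -/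
def EE (s : Bool) : (A s →₀ ℂ) →ₗ[ℂ] (Pt → ℂ) :=
  Finsupp.linearCombination ℂ (fun a : A s => ec a.1)

lemma EE_single (s : Bool) (a : A s) (r : ℂ) :
    EE s (Finsupp.single a r) = r • ec a.1 := Finsupp.linearCombination_single _ _ _

lemma exists_LL (s : Bool) : ∃ g : (Pt → ℂ) →ₗ[ℂ] (A s →₀ ℂ), g.comp (EE s) = LinearMap.id :=
  LinearMap.exists_leftInverse_of_injective _ (LinearMap.ker_eq_bot.mpr (linInd s))

/-- Coefficients. -/
def LL (s : Bool) : (Pt → ℂ) →ₗ[ℂ] (A s →₀ ℂ) := Classical.choose (exists_LL s)

lemma LL_EE (s : Bool) (F : A s →₀ ℂ) : LL s (EE s F) = F :=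
  LinearMap.congr_fun (Classical.choose_spec (exists_LL s)) F

/-- The span of the characters. -/
def VV (s : Bool) : Submodule ℂ (Pt → ℂ) := LinearMap.range (EE s)

lemma EE_LL (s : Bool) {f : Pt → ℂ} (hf : f ∈ VV s) : EE s (LL s f) = f := by
  obtain ⟨F, rfl⟩ := hf
  rw [LL_EE]

lemma ec_mem (s : Bool) {a : Pt → ZMod 4} (ha : a ∈ A s) : ec a ∈ VV s :=
  ⟨Finsupp.single ⟨a, ha⟩ 1, by rw [EE_single, one_smul]⟩

lemma VV_mul (s : Bool) {f g : Pt → ℂ} (hf : f ∈ VV s) (hg : g ∈ VV s) : f * g ∈ VV s := by
  obtain ⟨F, rfl⟩ := hf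
  obtain ⟨G, rfl⟩ := hg
  induction F using Finsupp.induction_linear with
  | zero => rw [map_zero, zero_mul]; exact zero_mem _
  | add F1 F2 h1 h2 => rw [map_add, add_mul]; exact add_mem h1 h2
  | single a r =>
    induction G using Finsupp.induction_linear with
    | zero => rw [map_zero, mul_zero]; exact zero_mem _
    | add G1 G2 h1 h2 => rw [map_add, mul_add]; exact add_mem h1 h2
    | single b t =>
      rw [EE_single, EE_single, smul_mul_smul_comm, ← ec_add]
      exact Submodule.smul_mem _ _ (ec_mem s (add_mem a.2 b.2))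

lemma VV_one (s : Bool) : (1 : Pt → ℂ) ∈ VV s := by
  rw [← ec_zero]; exact ec_mem s (zero_mem _)

lemma ec_chi_mem (s : Bool) (m : M) : ec (chi m) ∈ VV s := ec_mem s (chi_mem s m)

lemma ec_th_true (m : M) : ec (th true m) =
    (((1 + Complex.I) / 2) • (1 : Pt → ℂ) + ((1 - Complex.I) / 2) • ec (chi m)) *
      ec (th false m) := by
  funext x
  simp only [ec, th, chi, Pi.mul_apply, Pi.add_apply, Pi.smul_apply, Pi.one_apply, smul_eq_mul,
    if_true, Bool.false_eq_true, if_false, zero_add, iz_add]
  have h : ∀ a : ZMod 2, iz (lift a) = (1 + Complex.I) / 2 * 1 +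
      (1 - Complex.I) / 2 * iz (2 * lift a) := by
    intro a
    have ha : a = 0 ∨ a = 1 := by revert a; decide
    rcases ha with rfl | rfl
    · rw [show lift 0 = 0 from rfl, mul_zero, iz_zero]; ring
    · rw [show lift 1 = 1 from rfl]
      simp only [mul_one]
      rw [iz_one, iz_two]; ring
  rw [h (x.f m)]

lemma ec_th_false (m : M) : ec (th false m) =
    (((1 - Complex.I) / 2) • (1 : Pt → ℂ) + ((1 + Complex.I) / 2) • ec (chi m)) *
      ec (th true m) := by
  funext x
  simp only [ec, th, chi, Pi.mul_apply, Pi.add_apply, Pi.smul_apply, Pi.one_apply, smul_eq_mul,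
    if_true, Bool.false_eq_true, if_false, zero_add, iz_add]
  have h : ∀ a : ZMod 2, ((1 - Complex.I) / 2 * 1 +
      (1 + Complex.I) / 2 * iz (2 * lift a)) * iz (lift a) = 1 := by
    intro a
    have ha : a = 0 ∨ a = 1 := by revert a; decide
    rcases ha with rfl | rfl
    · rw [show lift 0 = 0 from rfl, mul_zero, iz_zero]; ring
    · rw [show lift 1 = 1 from rfl]
      simp only [mul_one]
      rw [iz_one, iz_two]
      ring_nf
      rw [Complex.I_sq]; ring
  rw [← mul_assoc, h (x.f m), one_mul]

lemma ec_th_mem (s t : Bool) (m : M) : ec (th s m) ∈ VV t := by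
  by_cases h : s = t
  · subst h; exact ec_mem _ (th_mem _ m)
  · have hs : s = !t := by revert h; cases s <;> cases t <;> simp
    subst hs
    cases t
    · change ec (th true m) ∈ VV false
      rw [ec_th_true]
      exact VV_mul _ (add_mem (Submodule.smul_mem _ _ (VV_one _))
        (Submodule.smul_mem _ _ (ec_chi_mem _ m))) (ec_mem _ (th_mem _ m))
    · change ec (th false m) ∈ VV true
      rw [ec_th_false]
      exact VV_mul _ (add_mem (Submodule.smul_mem _ _ (VV_one _))
        (Submodule.smul_mem _ _ (ec_chi_mem _ m))) (ec_mem _ (th_mem _ m))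

lemma ec_neg (a : Pt → ZMod 4) : ec (-a) = ec a * (ec a * ec a) := by
  rw [← ec_add, ← ec_add]
  congr 1
  funext x
  simp only [Pi.neg_apply, Pi.add_apply]
  generalize a x = z
  revert z; decide

/-- The characters of one law belong to the span of the characters of the other. -/
lemma ec_mem_VV (s t : Bool) {a : Pt → ZMod 4} (ha : a ∈ A s) : ec a ∈ VV t := by
  unfold A at ha
  induction ha using AddSubgroup.closure_induction with
  | mem a ha =>
    rcases ha with ⟨m, rfl⟩ | ⟨m, rfl⟩
    · exact ec_th_mem s t m
    · exact ec_chi_mem t m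
  | zero => rw [ec_zero]; exact VV_one t
  | add a b _ _ h1 h2 => rw [ec_add]; exact VV_mul t h1 h2
  | neg a _ h1 => rw [ec_neg]; exact VV_mul t h1 (VV_mul t h1 h1)

lemma EE_mem_VV (s t : Bool) (F : A s →₀ ℂ) : EE s F ∈ VV t := by
  induction F using Finsupp.induction_linear with
  | zero => rw [map_zero]; exact zero_mem _
  | add F1 F2 h1 h2 => rw [map_add]; exact add_mem h1 h2
  | single a r => rw [EE_single]; exact Submodule.smul_mem _ _ (ec_mem_VV s t a.2)

/-- The change of basis. -/
def Ph (s t : Bool) : (A s →₀ ℂ) →ₗ[ℂ] (A t →₀ ℂ) := (LL t).comp (EE s)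

lemma EE_Ph (s t : Bool) (F : A s →₀ ℂ) : EE t (Ph s t F) = EE s F :=
  EE_LL t (EE_mem_VV s t F)

lemma Ph_Ph (s t : Bool) (F : A s →₀ ℂ) : Ph t s (Ph s t F) = F := by
  change LL s (EE t (Ph s t F)) = F
  rw [EE_Ph, LL_EE]

/-! ### The trace -/

/-- The trace. -/
def TT (s : Bool) : (Pt → ℂ) →ₗ[ℂ] ℂ := (Finsupp.lapply 0).comp (LL s)

open scoped Classical in
lemma TT_ec (s : Bool) {a : Pt → ZMod 4} (ha : a ∈ A s) :
    TT s (ec a) = if a = 0 then 1 else 0 := by
  have h : ec a = EE s (Finsupp.single ⟨a, ha⟩ 1) := by rw [EE_single, one_smul]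
  change (LL s (ec a)) 0 = _
  rw [h, LL_EE, Finsupp.single_apply]
  congr 1
  rw [Subtype.ext_iff]; rfl

/-- The translate of a character of the law `true` by the law `false`. -/
lemma shift_mem (y : Pt) {c : Pt → ZMod 4} (hc : c ∈ A true) :
    (fun x : Pt => c (x.add' false y) - c y) ∈ A true := by
  unfold A at hc
  induction hc using AddSubgroup.closure_induction with
  | mem a ha =>
    rcases ha with ⟨m, rfl⟩ | ⟨m, rfl⟩
    · have hy : y.f m = 0 ∨ y.f m = 1 := by generalize y.f m = a; revert a; decide
      rcases hy with hy | hy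
      · convert th_mem true m using 1
        funext x
        simp only [th, Pt.add', if_true, Bool.false_eq_true, if_false, hy]
        clear hy
        generalize x.q m = a; generalize y.q m = b; generalize x.f m = c
        revert a b c; decide
      · convert add_mem (th_mem true m) (chi_mem true m) using 1
        funext x
        simp only [th, chi, Pi.add_apply, Pt.add', if_true, Bool.false_eq_true, if_false, hy]
        have key : ∀ a b c : ZMod 2, lift (c + 1) + 2 * lift (a + b + 0) -
            (lift 1 + 2 * lift b) = lift c + 2 * lift a + 2 * lift c := by decide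
        exact key _ _ _
    · convert chi_mem true m using 1
      funext x
      simp only [chi, Pt.add']
      generalize x.f m = a; generalize y.f m = b
      revert a b; decide
  | zero => convert zero_mem (A true) using 1; funext x; simp
  | add a b _ _ h1 h2 =>
    convert add_mem h1 h2 using 1
    funext x
    simp only [Pi.add_apply]; abel
  | neg a _ h1 =>
    convert neg_mem h1 using 1
    funext x
    simp only [Pi.neg_apply]; abel

lemma add'_add' (x y : Pt) : (x.add' false y).add' false y = x := by
  apply Pt.ext <;> funext m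
  · change x.f m + y.f m + y.f m = x.f m
    generalize x.f m = a; generalize y.f m = b
    revert a b; decide
  · simp only [Pt.add', Bool.false_eq_true, if_false, add_zero]
    generalize x.q m = a; generalize y.q m = b
    revert a b; decide

lemma shift_ne (y : Pt) {c : Pt → ZMod 4} (hc : c ∈ A true) (h0 : c ≠ 0) :
    (fun x : Pt => c (x.add' false y) - c y) ≠ 0 := by
  intro h
  apply h0
  have h1 : ∀ z, c z = c y := by
    intro z
    have := congrFun h (z.add' false y)
    simp only [add'_add', Pi.zero_apply] at this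
    exact sub_eq_zero.mp this
  funext z
  rw [h1 z, ← h1 Pt.zero', A_zero' true hc]; rfl

lemma TT_shift (y : Pt) {f : Pt → ℂ} (hf : f ∈ VV true) :
    TT true (fun x : Pt => f (x.add' false y)) = TT true f := by
  obtain ⟨F, rfl⟩ := hf
  induction F using Finsupp.induction_linear with
  | zero => simp only [map_zero, Pi.zero_apply]; exact map_zero _
  | add F1 F2 h1 h2 =>
    have e : (fun x : Pt => EE true (F1 + F2) (x.add' false y)) =
        (fun x : Pt => EE true F1 (x.add' false y)) +
          (fun x : Pt => EE true F2 (x.add' false y)) := by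
      funext x; rw [map_add]; rfl
    rw [e, map_add (TT true), h1, h2, ← map_add (TT true), ← map_add (EE true)]
  | single a r =>
    rw [EE_single, map_smul, TT_ec true a.2]
    have h : (fun x : Pt => (r • ec a.1) (x.add' false y)) =
        (r * iz (a.1 y)) • ec (fun x : Pt => a.1 (x.add' false y) - a.1 y) := by
      funext x
      simp only [Pi.smul_apply, ec, smul_eq_mul]
      rw [mul_assoc, ← iz_add, add_sub_cancel]
    rw [h, map_smul, TT_ec true (shift_mem y a.2)]
    by_cases h0 : a.1 = 0
    · rw [if_pos h0, if_pos, h0]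
      · simp [iz_zero]
      · rw [h0]; funext x; simp
    · rw [if_neg h0, if_neg (shift_ne y a.2 h0)]; simp

open scoped Classical in
lemma TT_true_ec {a : Pt → ZMod 4} (ha : a ∈ A false) :
    TT true (ec a) = if a = 0 then 1 else 0 := by
  by_cases h0 : a = 0
  · rw [h0]; rw [TT_ec true (zero_mem _)]
  · rw [if_neg h0]
    obtain ⟨y, hy⟩ := Function.ne_iff.mp h0
    have h1 := TT_shift y (ec_mem_VV false true ha)
    have h2 : (fun x : Pt => ec a (x.add' false y)) = iz (a y) • ec a := by
      funext x
      simp only [ec, Pi.smul_apply, smul_eq_mul]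
      rw [A_add' false ha, iz_add, mul_comm]
    rw [h2, map_smul, smul_eq_mul] at h1
    have h3 : (iz (a y) - 1) * TT true (ec a) = 0 := by rw [sub_mul, h1]; ring
    rcases mul_eq_zero.mp h3 with h4 | h4
    · exact absurd (iz_eq_one (sub_eq_zero.mp h4)) hy
    · exact h4

lemma TT_conj_mul (s : Bool) (F G : A s →₀ ℂ) :
    TT s (fun x => starRingEnd ℂ (EE s F x) * EE s G x) =
      F.sum fun c r => starRingEnd ℂ r * G c := by
  classical
  induction F using Finsupp.induction_linear with
  | zero => simp only [map_zero, Pi.zero_apply, zero_mul, Finsupp.sum_zero_index]; exact map_zero _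
  | add F1 F2 h1 h2 =>
    rw [Finsupp.sum_add_index', ← h1, ← h2, ← map_add]
    · congr 1
      funext x
      simp only [map_add, Pi.add_apply, add_mul]
    · intro a; simp
    · intro a r t; rw [map_add, add_mul]
  | single a r =>
    rw [Finsupp.sum_single_index (by simp)]
    induction G using Finsupp.induction_linear with
    | zero =>
      simp only [map_zero, Pi.zero_apply, mul_zero, Finsupp.coe_zero]; exact map_zero _
    | add G1 G2 h1 h2 =>
      rw [Finsupp.add_apply, mul_add, ← h1, ← h2, ← map_add]
      congr 1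
      funext x
      simp only [map_add, Pi.add_apply, mul_add]
    | single b t =>
      have h : (fun x => starRingEnd ℂ (EE s (Finsupp.single a r) x) *
          EE s (Finsupp.single b t) x) = (starRingEnd ℂ r * t) • ec (b.1 - a.1) := by
        funext x
        rw [EE_single, EE_single]
        simp only [Pi.smul_apply, ec, smul_eq_mul, map_mul, conj_iz, Pi.sub_apply]
        rw [sub_eq_neg_add, iz_add]; ring
      rw [h, map_smul, TT_ec s (sub_mem b.2 a.2), Finsupp.single_apply]
      by_cases hab : b = a
      · subst hab; simp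
      · rw [if_neg hab, if_neg]
        · simp
        · intro h0; exact hab (Subtype.ext (sub_eq_zero.mp h0))

open scoped Classical in
/-- The change of basis is unitary. -/
lemma Ph_ip (a a' : A false) :
    ((Ph false true (Finsupp.single a 1)).sum fun c r =>
      starRingEnd ℂ r * Ph false true (Finsupp.single a' 1) c) = if a = a' then 1 else 0 := by
  classical
  rw [← TT_conj_mul, EE_Ph, EE_Ph, EE_single, EE_single, one_smul, one_smul]
  have h : (fun x => starRingEnd ℂ (ec a.1 x) * ec a'.1 x) = ec (a'.1 - a.1) := by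
    funext x
    simp only [ec, conj_iz, Pi.sub_apply]
    rw [sub_eq_neg_add, iz_add]
  rw [h, TT_true_ec (sub_mem a'.2 a.2)]
  congr 1
  exact propext ⟨fun h => Subtype.ext (sub_eq_zero.mp h).symm, fun h => by rw [h, sub_self]⟩

/-! ### Multiplication with the action -/

/-- `(F, G) ↦ ∑ F(c) G(c') δ_{c + γ c'}`. -/
def MM (s : Bool) (g : M ≃ₗ[R] M) : (A s →₀ ℂ) →ₗ[ℂ] ((A s →₀ ℂ) →ₗ[ℂ] (A s →₀ ℂ)) :=
  Finsupp.linearCombination ℂ (fun c => Finsupp.lmapDomain ℂ ℂ (fun c' => c + sm s g c'))

lemma MM_single (s : Bool) (g : M ≃ₗ[R] M) (a b : A s) (r t : ℂ) :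
    MM s g (Finsupp.single a r) (Finsupp.single b t) =
      Finsupp.single (a + sm s g b) (r * t) := by
  simp only [MM, Finsupp.linearCombination_single, LinearMap.smul_apply,
    Finsupp.lmapDomain_apply, Finsupp.mapDomain_single, Finsupp.smul_single, smul_eq_mul]

lemma EE_MM (s : Bool) (g : M ≃ₗ[R] M) (F G : A s →₀ ℂ) :
    EE s (MM s g F G) = fun x => EE s F x * EE s G (x.comp g (map_add g)) := by
  induction F using Finsupp.induction_linear with
  | zero => simp only [map_zero, LinearMap.zero_apply, Pi.zero_apply, zero_mul]; rfl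
  | add F1 F2 h1 h2 =>
    rw [map_add, LinearMap.add_apply, map_add, h1, h2]
    funext x; simp only [map_add, Pi.add_apply, add_mul]
  | single a r =>
    induction G using Finsupp.induction_linear with
    | zero => simp only [map_zero, Pi.zero_apply, mul_zero]; rfl
    | add G1 G2 h1 h2 =>
      rw [map_add, map_add, h1, h2]
      funext x; simp only [map_add, Pi.add_apply, mul_add]
    | single b t =>
      rw [MM_single, EE_single, EE_single, EE_single]
      funext x
      simp only [Pi.smul_apply, smul_eq_mul, ec]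
      have : (a + sm s g b).1 x = a.1 x + b.1 (x.comp g (map_add g)) := rfl
      rw [this, iz_add]; ring

lemma Ph_MM (s t : Bool) (g : M ≃ₗ[R] M) (F G : A s →₀ ℂ) :
    Ph s t (MM s g F G) = MM t g (Ph s t F) (Ph s t G) := by
  have h : EE t (Ph s t (MM s g F G)) = EE t (MM t g (Ph s t F) (Ph s t G)) := by
    rw [EE_Ph, EE_MM, EE_MM, EE_Ph, EE_Ph]
  rw [← LL_EE t (Ph s t (MM s g F G)), h, LL_EE]

end

end Vale.Agent.P092.Gen
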